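import Vale.Agent.P166W.Ibp

/-!
Exponential moments of squares of unit Gaussian linear forms.
-/

namespace Vale.Agent.P166W

open MeasureTheory ProbabilityTheory Finset Real Complex

variable {ι : Type*} [Fintype ι]

/-- A unit linear form of independent standard Gaussians is standard Gaussian. -/
lemma map_lin {v : ι → ℝ} (hv : ∑ i, v i * v i = 1) :
    Measure.map (fun g : ι → ℝ => ∑ i, v i * g i) (gauss ι) = gaussianReal 0 1 := by
  have hm : Measurable fun g : ι → ℝ => ∑ i, v i * g i := by fun_prop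
  have : IsProbabilityMeasure (Measure.map (fun g : ι → ℝ => ∑ i, v i * g i) (gauss ι)) :=
    Measure.isProbabilityMeasure_map hm.aemeasurable
  refine Measure.ext_of_charFun (funext fun t => ?_)
  rw [charFun_apply_real, charFun_gaussianReal, integral_map hm.aemeasurable (by fun_prop)]
  have e : ∀ g : ι → ℝ, cexp ((t : ℂ) * ((∑ i, v i * g i : ℝ) : ℂ) * I) =
      ∏ i, cexp (((t * v i : ℝ) : ℂ) * (g i : ℂ) * I) := fun g => by
    rw [← Complex.exp_sum]
    push_cast
    rw [mul_sum, sum_mul]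
    exact congrArg _ (sum_congr rfl fun i _ => by ring)
  simp only [e, gauss]
  rw [integral_fintype_prod_eq_prod (μ := fun _ : ι => gaussianReal 0 1)
    fun i (x : ℝ) => cexp (((t * v i : ℝ) : ℂ) * (x : ℂ) * I)]
  simp only [← charFun_apply_real, charFun_gaussianReal, ← Complex.exp_sum]
  congr 1
  push_cast
  simp only [mul_zero, zero_mul, zero_sub, one_mul, sum_neg_distrib]
  rw [← sum_div]
  congr 2
  have hv' : (∑ i, (v i : ℂ) * (v i : ℂ)) = 1 := by exact_mod_cast hv
  calc ∑ i, ((t : ℂ) * (v i : ℂ)) ^ 2 = (t : ℂ) ^ 2 * ∑ i, (v i : ℂ) * (v i : ℂ) := by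
        rw [mul_sum]; exact sum_congr rfl fun i _ => by ring
    _ = _ := by rw [hv', mul_one]

lemma integrable_exp_quarter :
    Integrable (fun x : ℝ => Real.exp (x ^ 2 / 4)) (gaussianReal 0 1) := by
  rw [gaussianReal_of_var_ne_zero _ one_ne_zero,
    integrable_withDensity_iff (measurable_gaussianPDF _ _)
      (ae_of_all _ fun x => gaussianPDF_lt_top)]
  refine ((integrable_exp_neg_mul_sq (show (0 : ℝ) < 1 / 4 by norm_num)).const_mul
    (√(2 * π * 1))⁻¹).congr (ae_of_all _ fun x => ?_)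
  simp only [toReal_gaussianPDF, gaussianPDFReal_def, sub_zero, NNReal.coe_one]
  rw [mul_left_comm, ← Real.exp_add]
  congr 2
  ring

lemma integral_exp_quarter : ∫ x, Real.exp (x ^ 2 / 4) ∂gaussianReal 0 1 = √2 := by
  rw [integral_gaussianReal_eq_integral_smul one_ne_zero]
  have e : ∀ x : ℝ, gaussianPDFReal 0 1 x • Real.exp (x ^ 2 / 4) =
      (√(2 * π * 1))⁻¹ * Real.exp (-(1 / 4) * x ^ 2) := fun x => by
    simp only [smul_eq_mul, gaussianPDFReal_def, sub_zero, NNReal.coe_one, mul_assoc, ← Real.exp_add]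
    congr 2
    ring
  simp only [e]
  rw [integral_const_mul, integral_gaussian, ← Real.sqrt_inv, ← Real.sqrt_mul (by positivity)]
  congr 1
  field_simp
  ring

variable {v : ι → ℝ}

lemma aemeasurable_lin (v : ι → ℝ) :
    AEMeasurable (fun g : ι → ℝ => ∑ i, v i * g i) (gauss ι) :=
  (Measurable.aemeasurable (by fun_prop))

lemma integrable_exp_lin (hv : ∑ i, v i * v i = 1) :
    Integrable (fun g : ι → ℝ => Real.exp ((∑ i, v i * g i) ^ 2 / 4)) (gauss ι) := by
  have h := integrable_exp_quarter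
  rw [← map_lin hv] at h
  exact (integrable_map_measure (g := fun x : ℝ => Real.exp (x ^ 2 / 4)) (by fun_prop)
    (aemeasurable_lin v)).1 h

lemma integral_exp_lin_le (hv : ∑ i, v i * v i = 1) :
    ∫ g, Real.exp ((∑ i, v i * g i) ^ 2 / 4) ∂gauss ι ≤ 3 / 2 := by
  have h : ∫ g, Real.exp ((∑ i, v i * g i) ^ 2 / 4) ∂gauss ι = √2 := by
    rw [← integral_exp_quarter, ← map_lin hv, integral_map (aemeasurable_lin v) (by fun_prop)]
  rw [h, Real.sqrt_le_left (by norm_num)]
  norm_num

lemma integrable_sq_lin (hv : ∑ i, v i * v i = 1) :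
    Integrable (fun g : ι → ℝ => (∑ i, v i * g i) ^ 2) (gauss ι) ∧
      ∫ g, (∑ i, v i * g i) ^ 2 ∂gauss ι = 1 := by
  have h : Integrable (fun x : ℝ => x ^ 2) (gaussianReal 0 1) :=
    (memLp_id_gaussianReal (μ := 0) (v := 1) 2).integrable_sq
  have h2 : ∫ x, x ^ 2 ∂gaussianReal 0 1 = 1 := by
    have := variance_eq_integral (X := fun x : ℝ => x) (μ := gaussianReal 0 1) (by fun_prop)
    simpa [integral_id_gaussianReal, variance_id_gaussianReal] using this.symm
  constructor
  · rw [← map_lin hv] at h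
    exact (integrable_map_measure (g := fun x : ℝ => x ^ 2) (by fun_prop) (aemeasurable_lin v)).1 h
  · rw [← h2, ← map_lin hv, integral_map (aemeasurable_lin v) (by fun_prop)]

end Vale.Agent.P166W
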