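import Vale.Agent.P166W.Ibp

/-!
Rotation invariance of the standard Gaussian measure on `ι → ℝ`.
-/

namespace Vale.Agent.P166W

open MeasureTheory ProbabilityTheory Matrix WithLp

variable {ι : Type} [Fintype ι] [DecidableEq ι]

/-- An orthogonal matrix as an isometry of Euclidean space. -/
noncomputable def isoOfOrth (O : Matrix ι ι ℝ) (hO : Oᵀ * O = 1) :
    EuclideanSpace ℝ ι ≃ₗᵢ[ℝ] EuclideanSpace ℝ ι where
  toFun v := toLp 2 (O *ᵥ ofLp v)
  invFun v := toLp 2 (Oᵀ *ᵥ ofLp v)
  map_add' u v := by simp [mulVec_add]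
  map_smul' r v := by simp [mulVec_smul]
  left_inv v := by simp [mulVec_mulVec, hO]
  right_inv v := by simp [mulVec_mulVec, mul_eq_one_comm.1 hO]
  norm_map' v := by
    refine (sq_eq_sq₀ (norm_nonneg _) (norm_nonneg _)).1 ?_
    rw [EuclideanSpace.real_norm_sq_eq, EuclideanSpace.real_norm_sq_eq]
    have h : (O *ᵥ ofLp v) ⬝ᵥ (O *ᵥ ofLp v) = ofLp v ⬝ᵥ ofLp v := by
      rw [dotProduct_mulVec, ← mulVec_transpose, mulVec_mulVec, hO, one_mulVec]
    simpa [dotProduct, pow_two] using h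

/-- The standard Gaussian measure is invariant under orthogonal matrices. -/
lemma map_gauss_mulVec (O : Matrix ι ι ℝ) (hO : Oᵀ * O = 1) :
    (gauss ι).map (fun v => O *ᵥ v) = gauss ι := by
  have h1 : (gauss ι).map (toLp 2) = stdGaussian (EuclideanSpace ℝ ι) := map_pi_eq_stdGaussian
  have e : (fun v : ι → ℝ => O *ᵥ v) = ofLp ∘ isoOfOrth O hO ∘ toLp 2 := rfl
  rw [e, ← Measure.map_map (by fun_prop) (by fun_prop),
    ← Measure.map_map (isoOfOrth O hO).continuous.measurable (by fun_prop), h1, stdGaussian_map,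
    ← h1, Measure.map_map (by fun_prop) (by fun_prop)]
  exact Measure.map_id

end Vale.Agent.P166W
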