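import Vale.Agent.P166W.Ibp

/-!
Log-partition functions averaged over independent random energies, defined by adding one energy at a
time, together with their self-averaging.
-/

set_option linter.unusedSectionVars false

namespace Vale.Agent.P166W

open MeasureTheory ProbabilityTheory Finset

variable {X : Type*} [Fintype X] {Ω : Type*} [TopologicalSpace Ω] [MeasurableSpace Ω]
  [OpensMeasurableSpace Ω] [SecondCountableTopology Ω]

/-- The normalised log-partition function of a log-weight. -/
noncomputable def l0 (U : X → ℝ) : ℝ := Real.log ((∑ x, Real.exp (U x)) / Fintype.card X)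

/-- `M` independent energies, averaged. -/
noncomputable def lM (P : Measure Ω) (e : Ω → X → ℝ) : ℕ → (X → ℝ) → ℝ
  | 0, U => l0 U
  | M + 1, U => ∫ g, lM P e M (U + e g) ∂P

/-- Admissible random energies. -/
structure Energy (P : Measure Ω) (e : Ω → X → ℝ) : Prop where
  cont : Continuous e
  int : Integrable (fun g => ‖e g‖) P
  int_sq : Integrable (fun g => ‖e g‖ ^ 2) P

variable [Nonempty X] {P : Measure Ω} [IsProbabilityMeasure P]

lemma l0_add_le (U V : X → ℝ) : l0 (U + V) ≤ l0 U + ‖V‖ := by
  have hpos : ∀ W : X → ℝ, 0 < (∑ x, Real.exp (W x)) / Fintype.card X := fun W =>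
    div_pos (sum_pos (fun x _ => Real.exp_pos _) univ_nonempty) (by exact_mod_cast Fintype.card_pos)
  rw [l0, l0, ← Real.log_exp ‖V‖, ← Real.log_mul (hpos U).ne' (Real.exp_ne_zero _)]
  refine Real.log_le_log (hpos _) ?_
  rw [div_mul_eq_mul_div, sum_mul]
  refine div_le_div_of_nonneg_right (sum_le_sum fun x _ => ?_) (Nat.cast_nonneg _)
  rw [Pi.add_apply, Real.exp_add]
  exact mul_le_mul_of_nonneg_left
    (Real.exp_le_exp.2 ((le_abs_self _).trans (norm_le_pi_norm V x))) (Real.exp_pos _).le

lemma l0_lip (U V : X → ℝ) : |l0 (U + V) - l0 U| ≤ ‖V‖ := by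
  have h1 := l0_add_le U V
  have h2 := l0_add_le (U + V) (-V)
  rw [add_neg_cancel_right, norm_neg] at h2
  rw [abs_le]
  constructor <;> linarith

variable {e : Ω → X → ℝ}

lemma lM_props (he : Energy P e) : ∀ M, (∀ U V : X → ℝ, |lM P e M (U + V) - lM P e M U| ≤ ‖V‖) ∧
    Continuous (lM P e M) := by
  have key : ∀ F : (X → ℝ) → ℝ, (∀ U V, |F (U + V) - F U| ≤ ‖V‖) → Continuous F := fun F h => by
    refine (LipschitzWith.of_dist_le_mul (K := 1) fun U V => ?_).continuous
    have := h V (U - V)
    rw [add_sub_cancel] at this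
    simpa [Real.dist_eq, dist_eq_norm] using this
  intro M
  induction M with
  | zero => exact ⟨l0_lip, key _ l0_lip⟩
  | succ M ih =>
    have hint : ∀ U, Integrable (fun g => lM P e M (U + e g)) (P) := fun U =>
      ((integrable_const |lM P e M U|).add he.int).mono'
        (ih.2.comp (continuous_const.add he.cont)).aestronglyMeasurable
        (ae_of_all _ fun g => by
          rw [Real.norm_eq_abs, Pi.add_apply]
          linarith [ih.1 U (e g), abs_sub_abs_le_abs_sub (lM P e M (U + e g)) (lM P e M U)])
    have h : ∀ U V, |lM P e (M + 1) (U + V) - lM P e (M + 1) U| ≤ ‖V‖ := fun U V => by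
      simp only [lM]
      rw [← integral_sub (hint _) (hint _), ← Real.norm_eq_abs]
      refine (norm_integral_le_of_norm_le_const (μ := P) (C := ‖V‖)
        (ae_of_all _ fun g => ?_)).trans_eq (by simp)
      rw [Real.norm_eq_abs, add_right_comm]
      exact ih.1 _ _
    exact ⟨h, key _ h⟩

lemma lM_lip (he : Energy P e) (M : ℕ) (U V : X → ℝ) : |lM P e M (U + V) - lM P e M U| ≤ ‖V‖ :=
  (lM_props he M).1 U V

lemma lM_continuous (he : Energy P e) (M : ℕ) : Continuous (lM P e M) := (lM_props he M).2

lemma integrable_lM {f : Ω → X → ℝ} (he : Energy P e) (hf : Energy P f) (M : ℕ) (U : X → ℝ) :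
    Integrable (fun g => lM P e M (U + f g)) (P) :=
  ((integrable_const |lM P e M U|).add hf.int).mono'
    ((lM_continuous he M).comp (continuous_const.add hf.cont)).aestronglyMeasurable
    (ae_of_all _ fun g => by
      rw [Real.norm_eq_abs, Pi.add_apply]
      linarith [lM_lip he M U (f g), abs_sub_abs_le_abs_sub (lM P e M (U + f g)) (lM P e M U)])

/-- Two energies added in either order. -/
lemma integral_lM_swap {f : Ω → X → ℝ} (he : Energy P e) (hf : Energy P f) (M : ℕ) (U : X → ℝ) :
    ∫ g, lM P e (M + 1) (U + f g) ∂P = ∫ h, ∫ g, lM P e M (U + e h + f g) ∂P ∂P := by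
  simp only [lM]
  have hi : Integrable (Function.uncurry fun g h => lM P e M (U + f g + e h))
      (P.prod (P)) := by
    refine (((integrable_const |lM P e M U|).add (hf.int.comp_fst (P))).add
      (he.int.comp_snd (P))).mono' ((lM_continuous he M).comp ((continuous_const.add
        (hf.cont.comp continuous_fst)).add (he.cont.comp continuous_snd))).aestronglyMeasurable
      (ae_of_all _ fun z => ?_)
    simp only [Function.uncurry, Real.norm_eq_abs, Pi.add_apply]
    have h1 := lM_lip he M U (f z.1 + e z.2)
    rw [← add_assoc] at h1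
    linarith [norm_add_le (f z.1) (e z.2),
      abs_sub_abs_le_abs_sub (lM P e M (U + f z.1 + e z.2)) (lM P e M U)]
  rw [integral_integral_swap hi]
  simp only [add_right_comm]

/-- A bound on the mean square of one added energy propagates. -/
lemma increment_sq_le (he : Energy P e) {C : ℝ}
    (h0 : ∀ U, ∫ g, (l0 (U + e g) - l0 U) ^ 2 ∂P ≤ C) :
    ∀ M U, ∫ g, (lM P e M (U + e g) - lM P e M U) ^ 2 ∂P ≤ C
  | 0, U => h0 U
  | M + 1, U => by
    set D : Ω → Ω → ℝ := fun g h => lM P e M (U + e h + e g) - lM P e M (U + e h) with hD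
    have hDc : Continuous (Function.uncurry D) := by
      refine ((lM_continuous he M).comp ((continuous_const.add (he.cont.comp continuous_snd)).add
        (he.cont.comp continuous_fst))).sub
        ((lM_continuous he M).comp (continuous_const.add (he.cont.comp continuous_snd)))
    have hDb : ∀ g h, |D g h| ≤ ‖e g‖ := fun g h => lM_lip he M _ _
    have hDsq : ∀ g h, D g h ^ 2 ≤ ‖e g‖ ^ 2 := fun g h => by
      rw [← sq_abs]; exact pow_le_pow_left₀ (abs_nonneg _) (hDb g h) 2
    have hg : ∀ g, Integrable (fun h => D g h) (P) := fun g =>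
      (integrable_const ‖e g‖).mono'
        (hDc.comp (continuous_const.prodMk continuous_id)).aestronglyMeasurable
        (ae_of_all _ fun h => hDb g h)
    have hi : Integrable (Function.uncurry fun g h => D g h ^ 2) (P.prod (P)) :=
      (he.int_sq.comp_fst (P)).mono' (hDc.pow 2).aestronglyMeasurable
        (ae_of_all _ fun z => by
          simp only [Function.uncurry, Real.norm_eq_abs, abs_sq]
          exact hDsq _ _)
    have hmean : ∀ g, lM P e (M + 1) (U + e g) - lM P e (M + 1) U = ∫ h, D g h ∂P := fun g => by
      simp only [lM, hD]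
      rw [← integral_sub (integrable_lM he he M _) (integrable_lM he he M _)]
      simp only [add_right_comm]
    have hjen : ∀ g, (lM P e (M + 1) (U + e g) - lM P e (M + 1) U) ^ 2 ≤ ∫ h, D g h ^ 2 ∂P := by
      intro g
      rw [hmean g]
      set m := ∫ h, D g h ∂P with hm
      have h2 : Integrable (fun h => D g h ^ 2) (P) :=
        (integrable_const (‖e g‖ ^ 2)).mono'
          ((hDc.comp (continuous_const.prodMk continuous_id)).pow 2).aestronglyMeasurable
          (ae_of_all _ fun h => by
            simp only [Real.norm_eq_abs, abs_sq]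
            exact hDsq _ _)
      have i1 : Integrable (fun h => D g h ^ 2 - 2 * m * D g h) (P) :=
        h2.sub ((hg g).const_mul _)
      have h3 : 0 ≤ ∫ h, (D g h ^ 2 - 2 * m * D g h + m ^ 2) ∂P :=
        integral_nonneg fun h => by
          simp only [Pi.zero_apply]
          nlinarith [sq_nonneg (D g h - m)]
      rw [integral_add i1 (integrable_const _), integral_sub h2 ((hg g).const_mul _),
        integral_const_mul, ← hm] at h3
      simp at h3
      nlinarith
    refine (integral_mono_of_nonneg (ae_of_all _ fun g => sq_nonneg _) hi.integral_prod_left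
      (ae_of_all _ hjen)).trans ?_
    simp only [Function.uncurry_apply_pair]
    rw [integral_integral_swap hi]
    refine (integral_mono hi.integral_prod_right (integrable_const C) fun h => ?_).trans_eq (by simp)
    simp only [Function.uncurry_apply_pair]
    exact increment_sq_le he h0 M _

/-- The increment of the averaged log-partition function. -/
lemma abs_increment_le (he : Energy P e) {C : ℝ}
    (h0 : ∀ U, ∫ g, (l0 (U + e g) - l0 U) ^ 2 ∂P ≤ C) (M : ℕ) (U : X → ℝ) :
    |lM P e (M + 1) U - lM P e M U| ≤ (1 + C) / 2 := by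
  have hi : Integrable (fun g => lM P e M (U + e g) - lM P e M U) (P) :=
    (integrable_lM he he M U).sub (integrable_const _)
  have hsq : Integrable (fun g => (lM P e M (U + e g) - lM P e M U) ^ 2) (P) :=
    he.int_sq.mono' (hi.aestronglyMeasurable.pow 2) (ae_of_all _ fun g => by
      simp only [Real.norm_eq_abs, abs_sq]
      rw [← sq_abs]
      exact pow_le_pow_left₀ (abs_nonneg _) (lM_lip he M _ _) 2)
  have e1 : lM P e (M + 1) U - lM P e M U = ∫ g, (lM P e M (U + e g) - lM P e M U) ∂P := by
    rw [integral_sub (integrable_lM he he M U) (integrable_const _)]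
    simp [lM]
  rw [e1]
  refine abs_integral_le_integral_abs.trans ?_
  refine (integral_mono hi.abs (((integrable_const 1).add hsq).div_const 2) fun g => ?_).trans ?_
  · simp only [Pi.add_apply]
    nlinarith [sq_abs (lM P e M (U + e g) - lM P e M U), sq_nonneg (|lM P e M (U + e g) - lM P e M U| - 1)]
  · simp only [Pi.add_apply]
    rw [integral_div, integral_add (integrable_const _) hsq]
    simp
    linarith [increment_sq_le he h0 M U]

/-- The joint log-partition function of a first energy and the others. -/
noncomputable def phi (e : Ω → X → ℝ) (U : X → ℝ) {M : ℕ}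
    (z : Ω × (Fin M → Ω)) : ℝ :=
  l0 (U + e z.1 + ∑ a, e (z.2 a))

lemma phi_memLp (he : Energy P e) (U : X → ℝ) (M : ℕ) (c : ℝ) :
    MemLp (fun z => phi (M := M) e U z - c) 2
      (P.prod (Measure.pi fun _ => P)) := by
  set Q := Measure.pi fun _ : Fin M => P
  have hΦc : Continuous (phi (M := M) e U) := by
    refine (lM_continuous he 0).comp ((continuous_const.add (he.cont.comp continuous_fst)).add ?_)
    exact continuous_finsetSum _ fun a _ =>
      he.cont.comp ((continuous_apply a).comp continuous_snd)
  set B : Ω × (Fin M → Ω) → ℝ := fun z => ‖e z.1‖ + ∑ a, ‖e (z.2 a)‖ with hB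
  have hΦb : ∀ z, |phi e U z - l0 U| ≤ B z := fun z => by
    have h := l0_lip U (e z.1 + ∑ a, e (z.2 a))
    rw [← add_assoc] at h
    exact h.trans ((norm_add_le _ _).trans (add_le_add le_rfl (norm_sum_le _ _)))
  have hBm : MemLp B 2 (P.prod Q) := by
    have h1 : MemLp (fun g => ‖e g‖) 2 (P) :=
      (memLp_two_iff_integrable_sq he.cont.norm.aestronglyMeasurable).2 he.int_sq
    refine (h1.comp_measurePreserving measurePreserving_fst).add
      (memLp_finsetSum _ fun a _ => ?_)
    exact h1.comp_measurePreserving ((measurePreserving_eval _ a).comp measurePreserving_snd)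
  have h : MemLp (fun z => B z + |l0 U - c|) 2 (P.prod Q) := hBm.add (memLp_const _)
  refine h.mono' (hΦc.sub continuous_const).aestronglyMeasurable (ae_of_all _ fun z => ?_)
  rw [Real.norm_eq_abs]
  linarith [abs_sub_le (phi e U z) (l0 U) c, hΦb z]

/-- The mean minimises the second moment. -/
lemma sq_dev_le {Ω : Type*} [MeasurableSpace Ω] {P : Measure Ω} [IsProbabilityMeasure P]
    {f : Ω → ℝ} (h2 : Integrable (fun x => (f x - ∫ y, f y ∂P) ^ 2) P)
    (hf : Integrable f P) (d : ℝ) :
    ∫ x, (f x - d) ^ 2 ∂P = ∫ x, (f x - ∫ y, f y ∂P) ^ 2 ∂P + ((∫ y, f y ∂P) - d) ^ 2 := by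
  set m := ∫ y, f y ∂P with hm
  have e : ∀ x, (f x - d) ^ 2 = (f x - m) ^ 2 + (2 * (m - d) * (f x - m) + (m - d) ^ 2) := fun x => by
    ring
  have i4 : Integrable (fun x => 2 * (m - d) * (f x - m)) P :=
    (hf.sub (integrable_const _)).const_mul _
  simp only [e]
  have i5 : Integrable (fun x => 2 * (m - d) * (f x - m) + (m - d) ^ 2) P :=
    i4.add (integrable_const _)
  rw [integral_add h2 i5, integral_add i4 (integrable_const _),
    integral_const_mul, integral_sub hf (integrable_const _), ← hm]
  simp

/-- The random log-partition function has mean `lM` and variance at most `C M`. -/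
theorem self_averaging (he : Energy P e) {C : ℝ}
    (h0 : ∀ U, ∫ g, (l0 (U + e g) - l0 U) ^ 2 ∂P ≤ C) :
    ∀ (M : ℕ) (U : X → ℝ),
      Integrable (fun g : Fin M → Ω => l0 (U + ∑ a, e (g a)))
        (Measure.pi fun _ => P) ∧
      Integrable (fun g : Fin M → Ω => (l0 (U + ∑ a, e (g a)) - lM P e M U) ^ 2)
        (Measure.pi fun _ => P) ∧
      ∫ g, l0 (U + ∑ a, e (g a)) ∂(Measure.pi fun _ : Fin M => P) = lM P e M U ∧
      ∫ g, (l0 (U + ∑ a, e (g a)) - lM P e M U) ^ 2 ∂(Measure.pi fun _ : Fin M => P) ≤ C * M
  | 0, U => by simp [lM]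
  | M + 1, U => by
    set Q := Measure.pi fun _ : Fin M => P
    set T := MeasurableEquiv.piFinSuccAbove (fun _ : Fin (M + 1) => Ω) 0
    have hT := measurePreserving_piFinSuccAbove (fun _ : Fin (M + 1) => P) 0
    have hΦT : ∀ g : Fin (M + 1) → Ω, l0 (U + ∑ a, e (g a)) = phi e U (T g) := fun g => by
      simp only [phi, T, MeasurableEquiv.piFinSuccAbove, Fin.sum_univ_succ]
      simp [Fin.insertNthEquiv, Fin.tail, add_assoc]
    set c := lM P e (M + 1) U with hc
    have hΦ2 := phi_memLp he U M c
    have hΦi : Integrable (phi (M := M) e U) (P.prod Q) :=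
      ((hΦ2.integrable one_le_two).add (integrable_const c)).congr
        (ae_of_all _ fun z => sub_add_cancel (phi e U z) c)
    have hΦsq : Integrable (fun z => (phi (M := M) e U z - c) ^ 2) (P.prod Q) :=
      hΦ2.integrable_sq
    have hmean : ∫ z, phi e U z ∂P.prod Q = c := by
      rw [integral_prod _ hΦi]
      exact integral_congr_ae (ae_of_all _ fun g => by
        simp only [phi]; exact (self_averaging he h0 M _).2.2.1)
    refine ⟨?_, ?_, ?_, ?_⟩
    · simp only [hΦT]; exact hT.integrable_comp_of_integrable hΦi
    · simp only [hΦT]; exact hT.integrable_comp_of_integrable hΦsq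
    · simp only [hΦT]
      rw [hT.integral_comp T.measurableEmbedding (phi e U), hmean]
    · simp only [hΦT]
      rw [hT.integral_comp T.measurableEmbedding (fun z => (phi e U z - c) ^ 2),
        integral_prod _ hΦsq]
      have hmi : Integrable (fun g => lM P e M (U + e g)) (P) := integrable_lM he he M U
      have hin : ∀ g, ∫ r, (phi e U (g, r) - c) ^ 2 ∂Q ≤ C * M + (lM P e M (U + e g) - c) ^ 2 :=
        fun g => by
          obtain ⟨i1, i2, e1, e2⟩ := self_averaging he h0 M (U + e g)
          simp only [phi]
          rw [sq_dev_le (by rw [e1]; exact i2) i1 c, e1]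
          linarith
      have hd2 : Integrable (fun g => (lM P e M (U + e g) - c) ^ 2) (P) := by
        have hm : AEStronglyMeasurable (fun g => lM P e M (U + e g) - c) (P) :=
          hmi.aestronglyMeasurable.sub aestronglyMeasurable_const
        refine MemLp.integrable_sq (MemLp.mono' (g := fun g => ‖e g‖ + |lM P e M U - c|) ?_ hm
          (ae_of_all _ fun g => ?_))
        · exact ((memLp_two_iff_integrable_sq he.cont.norm.aestronglyMeasurable).2 he.int_sq).add
            (memLp_const _)
        · rw [Real.norm_eq_abs]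
          linarith [abs_sub_le (lM P e M (U + e g)) (lM P e M U) c, lM_lip he M U (e g)]
      refine (integral_mono hΦsq.integral_prod_left ((integrable_const _).add hd2) hin).trans ?_
      simp only [Pi.add_apply]
      rw [integral_add (integrable_const _) hd2, integral_const, probReal_univ, one_smul]
      have hinc := increment_sq_le he h0 M U
      rw [sq_dev_le (f := fun g => lM P e M (U + e g)) hd2 hmi (lM P e M U)] at hinc
      have hc' : (∫ g, lM P e M (U + e g) ∂P) = c := rfl
      rw [hc'] at hinc
      push_cast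
      linarith [sq_nonneg (c - lM P e M U)]

end Vale.Agent.P166W
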