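import Vale.Agent.P166W.Concave
import Vale.Agent.P166W.Recur
import Vale.Agent.P157.Super

/-!
Superadditivity of the averaged log-partition function, on the cube, of Gaussian patterns with
random small weights.
-/

set_option linter.unusedSectionVars false
set_option linter.unusedVariables false

namespace Vale.Agent.P166W

open MeasureTheory ProbabilityTheory Finset
open Vale.Agent.P157 (binE binE_mono binE_thin binE_add binE_const_mul)

variable {ι κ : Type} [Fintype ι] [Fintype κ] [DecidableEq ι] [DecidableEq κ]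

/-- The spin of a bit. -/
def sp (b : Bool) : ℝ := if b then 1 else -1

lemma sp_mul_self (b : Bool) : sp b * sp b = 1 := by cases b <;> simp [sp]

/-- The unit vector of a configuration. -/
noncomputable def uvec (x : ι → Bool) (i : ι) : ℝ := sp (x i) / Real.sqrt (Fintype.card ι)

/-- The weight of a pattern, clipped to the admissible range. -/
noncomputable def cl (β x : ℝ) : ℝ := max (-(1 / 256)) (min (β * x / 2) (1 / 256))

lemma abs_cl_le (β x : ℝ) : |cl β x| ≤ 1 / 256 :=
  abs_le.2 ⟨le_max_left _ _, max_le (by norm_num) (min_le_right _ _)⟩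

lemma continuous_cl (β : ℝ) : Continuous (cl β) := by unfold cl; fun_prop

/-- The law of one pattern with its weight. -/
noncomputable def law (ι : Type) [Fintype ι] (ν : Measure ℝ) : Measure ((ι → ℝ) × ℝ) :=
  (gauss ι).prod ν

instance (ι : Type) [Fintype ι] (ν : Measure ℝ) [IsProbabilityMeasure ν] :
    IsProbabilityMeasure (law ι ν) := by unfold law; infer_instance

/-- The energy of one weighted pattern. -/
noncomputable def en (β : ℝ) (ω : (ι → ℝ) × ℝ) (x : ι → Bool) : ℝ :=
  cl β ω.2 * (∑ i, uvec x i * ω.1 i) ^ 2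

variable {ν : Measure ℝ} [IsProbabilityMeasure ν]

lemma uvec_unit [Nonempty ι] (x : ι → Bool) : ∑ i, uvec x i * uvec x i = 1 := by
  simp only [uvec, div_mul_div_comm, sp_mul_self, Real.mul_self_sqrt (Nat.cast_nonneg _)]
  rw [sum_const, card_univ, nsmul_eq_mul, mul_one_div, div_self]
  exact_mod_cast Fintype.card_ne_zero

/-- An energy which is a clipped weight times the square of a linear form is admissible. -/
lemma energy_of_lin {X : Type*} [Fintype X] (β : ℝ) (v : X → ι → ℝ) :
    Energy (law ι ν) fun (ω : (ι → ℝ) × ℝ) (x : X) => cl β ω.2 * (∑ i, v x i * ω.1 i) ^ 2 := by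
  have hc : Continuous fun (ω : (ι → ℝ) × ℝ) (x : X) => cl β ω.2 * (∑ i, v x i * ω.1 i) ^ 2 := by
    have := continuous_cl β
    fun_prop
  set K : ℝ := (∑ x, ∑ i, |v x i|) ^ 2 with hK
  have hpow : ∀ ω : (ι → ℝ) × ℝ, ‖fun x : X => cl β ω.2 * (∑ i, v x i * ω.1 i) ^ 2‖ ≤
      K * (1 + ∑ i, |ω.1 i|) ^ 2 := fun ω => by
    refine (pi_norm_le_iff_of_nonneg (by positivity)).2 fun x => ?_
    rw [Real.norm_eq_abs, abs_mul, abs_pow, hK, ← mul_pow]
    refine (mul_le_of_le_one_left (by positivity) ((abs_cl_le β ω.2).trans (by norm_num))).trans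
      (pow_le_pow_left₀ (abs_nonneg _) ?_ 2)
    calc |∑ i, v x i * ω.1 i| ≤ (∑ i, |v x i|) * (1 + ∑ i, |ω.1 i|) := by
          rw [sum_mul]
          refine (abs_sum_le_sum_abs _ _).trans (sum_le_sum fun i _ => ?_)
          rw [abs_mul]
          refine mul_le_mul_of_nonneg_left ?_ (abs_nonneg _)
          linarith [single_le_sum (f := fun j => |ω.1 j|) (fun j _ => abs_nonneg _) (mem_univ i)]
      _ ≤ _ := mul_le_mul_of_nonneg_right (single_le_sum (f := fun y => ∑ i, |v y i|)
          (fun y _ => sum_nonneg fun i _ => abs_nonneg _) (mem_univ x)) (by positivity)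
  have h2 : Integrable (fun g : ι → ℝ => K * (1 + ∑ i, |g i|) ^ 2) (gauss ι) :=
    PolyGrowth.integrable ⟨K, 2, fun g => le_of_eq (abs_of_nonneg (by positivity))⟩ (by fun_prop)
  have h4 : Integrable (fun g : ι → ℝ => (K * (1 + ∑ i, |g i|) ^ 2) ^ 2) (gauss ι) :=
    PolyGrowth.integrable ⟨K ^ 2, 4, fun g => le_of_eq
      ((abs_of_nonneg (by positivity)).trans (by ring))⟩ (by fun_prop)
  refine ⟨hc, (h2.comp_fst ν).mono' hc.norm.aestronglyMeasurable (ae_of_all _ fun ω => ?_),
    (h4.comp_fst ν).mono' (hc.norm.pow 2).aestronglyMeasurable (ae_of_all _ fun ω => ?_)⟩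
  · rw [norm_norm]; exact hpow ω
  · rw [norm_pow, norm_norm]; exact pow_le_pow_left₀ (norm_nonneg _) (hpow ω) 2

lemma energy_en (β : ℝ) : Energy (law ι ν) (en (ι := ι) β) := energy_of_lin β uvec

section one

variable {X : Type*} [Fintype X] [Nonempty X]

/-- The Gibbs distribution of a log-weight. -/
noncomputable def gibbs (U : X → ℝ) (x : X) : ℝ := Real.exp (U x) / ∑ y, Real.exp (U y)

lemma gibbs_pos (U : X → ℝ) (x : X) : 0 < gibbs U x :=
  div_pos (Real.exp_pos _) (sum_pos (fun y _ => Real.exp_pos _) univ_nonempty)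

lemma gibbs_sum (U : X → ℝ) : ∑ x, gibbs U x = 1 := by
  simp only [gibbs, ← sum_div]
  exact div_self (sum_pos (fun y _ => Real.exp_pos _) univ_nonempty).ne'

lemma l0_add_sq (U : X → ℝ) (c : ℝ) (z : X → ℝ) :
    l0 (U + fun x => c * z x ^ 2) = l0 U + Real.log (zp c (gibbs U) z) := by
  have hS : 0 < ∑ y, Real.exp (U y) := sum_pos (fun y _ => Real.exp_pos _) univ_nonempty
  have hZ := zp_pos (c := c) (gibbs_pos U) z
  have hn : (0 : ℝ) < Fintype.card X := by exact_mod_cast Fintype.card_pos
  rw [l0, l0, ← Real.log_mul (div_pos hS hn).ne' hZ.ne']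
  congr 1
  rw [zp, mul_sum, sum_div]
  refine sum_congr rfl fun x _ => ?_
  rw [Pi.add_apply, Real.exp_add, gibbs]
  field_simp

/-- The second moment of one added pattern. -/
lemma l0_increment_sq {c : ℝ} (hc : |c| ≤ 1 / 256) {v : X → ι → ℝ}
    (hv : ∀ x, ∑ i, v x i * v x i = 1) (U : X → ℝ) :
    ∫ g, (l0 (U + fun x => c * (∑ i, v x i * g i) ^ 2) - l0 U) ^ 2 ∂gauss ι ≤ 6 := by
  have hc' : |(|c|)| ≤ 1 / 256 := by rwa [abs_abs]
  set z : (ι → ℝ) → X → ℝ := fun g x => ∑ i, v x i * g i
  have hi : Integrable (fun g => zp |c| (gibbs U) (z g)) (gauss ι) :=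
    integrable_finsetSum _ fun m _ => (integrable_zterm hc' (hv m)).1.const_mul _
  have hb : ∀ g, (l0 (U + fun x => c * (∑ i, v x i * g i) ^ 2) - l0 U) ^ 2 ≤
      4 * zp |c| (gibbs U) (z g) := fun g => by
    rw [l0_add_sq U c (z g), add_sub_cancel_left]
    set Y := zp |c| (gibbs U) (z g) with hY
    have hY1 : 1 ≤ Y := by
      rw [hY, zp, ← gibbs_sum U]
      refine sum_le_sum fun x _ => le_mul_of_one_le_right (gibbs_pos U x).le ?_
      exact Real.one_le_exp (by positivity)
    have hY0 : 0 < Y := by linarith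
    have h1 : zp c (gibbs U) (z g) ≤ Y := sum_le_sum fun x _ => mul_le_mul_of_nonneg_left
      (Real.exp_le_exp.2 (mul_le_mul_of_nonneg_right (le_abs_self c) (sq_nonneg _)))
      (gibbs_pos U x).le
    have h2 : Y⁻¹ ≤ zp c (gibbs U) (z g) := by
      have hA : Real.exp (-∑ x, gibbs U x * (|c| * z g x ^ 2)) ≤ zp c (gibbs U) (z g) := by
        have h := convexOn_exp.map_sum_le (t := univ) (w := gibbs U)
          (p := fun x => c * z g x ^ 2) (fun m _ => (gibbs_pos U m).le) (gibbs_sum U)
          fun _ _ => Set.mem_univ _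
        simp only [smul_eq_mul] at h
        refine le_trans (Real.exp_le_exp.2 ?_) h
        rw [← sum_neg_distrib]
        refine sum_le_sum fun x _ => ?_
        have := neg_abs_le c
        nlinarith [mul_nonneg (gibbs_pos U x).le (sq_nonneg (z g x))]
      refine le_trans ?_ hA
      rw [Real.exp_neg]
      refine inv_anti₀ (Real.exp_pos _) ?_
      have h := convexOn_exp.map_sum_le (t := univ) (w := gibbs U)
        (p := fun x => |c| * z g x ^ 2) (fun m _ => (gibbs_pos U m).le) (gibbs_sum U)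
        fun _ _ => Set.mem_univ _
      simpa only [smul_eq_mul, hY, zp] using h
    have hl1 := Real.log_le_log (zp_pos (gibbs_pos U) _) h1
    have hl2 := Real.log_le_log (inv_pos.2 hY0) h2
    rw [Real.log_inv] at hl2
    have hl0 : 0 ≤ Real.log Y := Real.log_nonneg hY1
    have hsq : Real.log Y ≤ 2 * Real.sqrt Y := by
      have h := Real.log_le_sub_one_of_pos (Real.sqrt_pos.2 hY0)
      rw [Real.log_sqrt hY0.le] at h
      linarith
    calc Real.log (zp c (gibbs U) (z g)) ^ 2 ≤ Real.log Y ^ 2 := sq_le_sq' (by linarith) hl1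
      _ ≤ (2 * Real.sqrt Y) ^ 2 := pow_le_pow_left₀ hl0 hsq 2
      _ = 4 * Y := by rw [mul_pow, Real.sq_sqrt hY0.le]; norm_num
  refine (integral_mono_of_nonneg (ae_of_all _ fun g => sq_nonneg _) (hi.const_mul 4)
    (ae_of_all _ hb)).trans ?_
  rw [integral_const_mul]
  simp only [zp]
  rw [integral_finsetSum _ fun m _ => (integrable_zterm hc' (hv m)).1.const_mul _]
  simp only [integral_const_mul]
  have h := sum_le_sum (s := univ) fun m (_ : m ∈ univ) =>
    mul_le_mul_of_nonneg_left (integrable_zterm hc' (hv m)).2 (gibbs_pos U m).le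
  rw [← sum_mul, gibbs_sum, abs_abs] at h
  linarith

end one

lemma en_increment_sq [Nonempty ι] (β : ℝ) (U : (ι → Bool) → ℝ) :
    ∫ ω, (l0 (U + en β ω) - l0 U) ^ 2 ∂law ι ν ≤ 6 := by
  have he := energy_en (ι := ι) (ν := ν) β
  have hi : Integrable (fun ω => (l0 (U + en β ω) - l0 U) ^ 2) (law ι ν) :=
    he.int_sq.mono' (((lM_continuous he 0).comp (continuous_const.add he.cont)).sub
      continuous_const |>.pow 2).aestronglyMeasurable (ae_of_all _ fun ω => by
      rw [Real.norm_eq_abs, abs_sq, ← sq_abs]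
      exact pow_le_pow_left₀ (abs_nonneg _) (l0_lip U _) 2)
  unfold law at hi ⊢
  rw [integral_prod_symm _ hi]
  refine (integral_mono hi.integral_prod_right (integrable_const (6 : ℝ)) fun x => ?_).trans_eq
    (by simp)
  exact l0_increment_sq (abs_cl_le β x) uvec_unit U

section block

/-- The energy of a pattern seen only by the first block. -/
noncomputable def enl (β : ℝ) (ω : (ι ⊕ κ → ℝ) × ℝ) (x : ι ⊕ κ → Bool) : ℝ :=
  en β (fun i => ω.1 (Sum.inl i), ω.2) fun i => x (Sum.inl i)

/-- The energy of a pattern seen only by the second block. -/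
noncomputable def enr (β : ℝ) (ω : (ι ⊕ κ → ℝ) × ℝ) (x : ι ⊕ κ → Bool) : ℝ :=
  en β (fun i => ω.1 (Sum.inr i), ω.2) fun i => x (Sum.inr i)

/-- Vector of the first block. -/
noncomputable def vl (x : ι ⊕ κ → Bool) : ι ⊕ κ → ℝ :=
  Sum.elim (uvec fun i => x (Sum.inl i)) 0

/-- Vector of the second block. -/
noncomputable def vr (x : ι ⊕ κ → Bool) : ι ⊕ κ → ℝ :=
  Sum.elim 0 (uvec fun i => x (Sum.inr i))

/-- The fraction of the first block. -/
noncomputable def frac (ι κ : Type) [Fintype ι] [Fintype κ] : ℝ :=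
  (Fintype.card ι : ℝ) / (Fintype.card ι + Fintype.card κ : ℕ)

lemma enl_eq (β : ℝ) :
    (enl (ι := ι) (κ := κ) β) = fun ω x => cl β ω.2 * (∑ i, vl x i * ω.1 i) ^ 2 := by
  funext g x
  simp [enl, en, vl, Fintype.sum_sum_type]

lemma enr_eq (β : ℝ) :
    (enr (ι := ι) (κ := κ) β) = fun ω x => cl β ω.2 * (∑ i, vr x i * ω.1 i) ^ 2 := by
  funext g x
  simp [enr, en, vr, Fintype.sum_sum_type]

variable [Nonempty ι] [Nonempty κ]

/-- One pattern on the whole system is better than one pattern on a random block. -/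
lemma one_pattern_fixed {c : ℝ} (hc : |c| ≤ 1 / 256) (U : (ι ⊕ κ → Bool) → ℝ) :
    frac ι κ * ∫ g, l0 (U + fun x => c * (∑ i, vl x i * g i) ^ 2) ∂gauss (ι ⊕ κ) +
        (1 - frac ι κ) * ∫ g, l0 (U + fun x => c * (∑ i, vr x i * g i) ^ 2) ∂gauss (ι ⊕ κ) ≤
      ∫ g, l0 (U + fun x => c * (∑ i, uvec x i * g i) ^ 2) ∂gauss (ι ⊕ κ) := by
  have ha : (0 : ℝ) < Fintype.card ι := by exact_mod_cast Fintype.card_pos
  have hb : (0 : ℝ) < Fintype.card κ := by exact_mod_cast Fintype.card_pos
  set s := frac ι κ with hs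
  have hs0 : 0 ≤ s := by rw [hs, frac]; positivity
  have hs1 : s ≤ 1 := by rw [hs, frac, div_le_one (by push_cast; positivity)]; push_cast; linarith
  set p := gibbs U
  have hl : ∀ x : ι ⊕ κ → Bool, ∑ i, vl x i * vl x i = 1 := fun x => by
    simp [vl, Fintype.sum_sum_type, uvec_unit]
  have hr : ∀ x : ι ⊕ κ → Bool, ∑ i, vr x i * vr x i = 1 := fun x => by
    simp [vr, Fintype.sum_sum_type, uvec_unit]
  have horth : ∀ x y : ι ⊕ κ → Bool, ∑ i, vr x i * vl y i = 0 := fun x y => by
    simp [vr, vl, Fintype.sum_sum_type]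
  have key := interp_concave (gibbs_pos U) (gibbs_sum U) hc vr vl horth hr hl hs0 hs1
  have hZ : ∀ g : ι ⊕ κ → ℝ,
      Z vr vl s g = fun x : ι ⊕ κ → Bool => ∑ i, uvec x i * g i := fun g => funext fun x => by
    simp only [Z, Fintype.sum_sum_type, vr, vl, Sum.elim_inl, Sum.elim_inr, Pi.zero_apply, zero_mul,
      sum_const_zero, zero_add, add_zero, mul_sum]
    rw [add_comm]
    congr 1
    all_goals refine sum_congr rfl fun i _ => ?_
    all_goals simp only [uvec, hs, frac, Fintype.card_sum, Nat.cast_add]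
    · rw [Real.sqrt_div ha.le]
      have := (Real.sqrt_pos.2 ha).ne'
      have := (Real.sqrt_pos.2 (add_pos ha hb)).ne'
      field_simp
    · rw [one_sub_div (add_pos ha hb).ne', add_sub_cancel_left, Real.sqrt_div hb.le]
      have := (Real.sqrt_pos.2 hb).ne'
      have := (Real.sqrt_pos.2 (add_pos ha hb)).ne'
      field_simp
  have conv : ∀ v : (ι ⊕ κ → Bool) → ι ⊕ κ → ℝ,
      ∫ g, l0 (U + fun x => c * (∑ i, v x i * g i) ^ 2) ∂gauss (ι ⊕ κ) =
        l0 U + ∫ g, Real.log (zp c p fun x => ∑ i, v x i * g i) ∂gauss (ι ⊕ κ) := fun v => by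
    have hi : Integrable (fun g => Real.log (zp c p fun x => ∑ i, v x i * g i))
        (gauss (ι ⊕ κ)) := by
      have h := integrable_comp v v (tame_log (c := c) (gibbs_pos U))
        (s := 0) (Set.left_mem_Icc.2 zero_le_one)
      refine h.congr (ae_of_all _ fun g => ?_)
      have e : Z v v 0 g = fun x => ∑ i, v x i * g i := funext fun x => by simp [Z]
      simp only [e, p]
    simp only [fun g : ι ⊕ κ → ℝ => l0_add_sq U c fun x => ∑ i, v x i * g i]
    rw [integral_add (integrable_const _) hi]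
    simp
  simp only [conv]
  simp only [hZ] at key
  linarith

lemma energy_enl (β : ℝ) : Energy (law (ι ⊕ κ) ν) (enl (ι := ι) (κ := κ) β) := by
  rw [enl_eq]; exact energy_of_lin β vl

lemma energy_enr (β : ℝ) : Energy (law (ι ⊕ κ) ν) (enr (ι := ι) (κ := κ) β) := by
  rw [enr_eq]; exact energy_of_lin β vr

/-- One randomly weighted pattern on the whole system is better than one on a random block. -/
lemma one_pattern (β : ℝ) (U : (ι ⊕ κ → Bool) → ℝ) :
    frac ι κ * ∫ ω, l0 (U + enl β ω) ∂law (ι ⊕ κ) ν +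
        (1 - frac ι κ) * ∫ ω, l0 (U + enr β ω) ∂law (ι ⊕ κ) ν ≤
      ∫ ω, l0 (U + en β ω) ∂law (ι ⊕ κ) ν := by
  have he := energy_en (ι := ι ⊕ κ) (ν := ν) β
  have i1 : Integrable (fun ω => l0 (U + enl β ω)) (law (ι ⊕ κ) ν) :=
    integrable_lM he (energy_enl β) 0 U
  have i2 : Integrable (fun ω => l0 (U + enr β ω)) (law (ι ⊕ κ) ν) :=
    integrable_lM he (energy_enr β) 0 U
  have i3 : Integrable (fun ω => l0 (U + en β ω)) (law (ι ⊕ κ) ν) := integrable_lM he he 0 U
  unfold law at i1 i2 i3 ⊢
  rw [integral_prod_symm _ i1, integral_prod_symm _ i2, integral_prod_symm _ i3,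
    ← integral_const_mul, ← integral_const_mul,
    ← integral_add (i1.integral_prod_right.const_mul _) (i2.integral_prod_right.const_mul _)]
  refine integral_mono ((i1.integral_prod_right.const_mul _).add
    (i2.integral_prod_right.const_mul _)) i3.integral_prod_right fun x => ?_
  simp only [enl_eq, enr_eq]
  exact one_pattern_fixed (abs_cl_le β x) U

lemma pattern_mono (β : ℝ) : ∀ (M : ℕ) (U : (ι ⊕ κ → Bool) → ℝ),
    frac ι κ * ∫ g, lM (law (ι ⊕ κ) ν) (en β) M (U + enl β g) ∂law (ι ⊕ κ) ν +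
        (1 - frac ι κ) * ∫ g, lM (law (ι ⊕ κ) ν) (en β) M (U + enr β g) ∂law (ι ⊕ κ) ν ≤
      ∫ g, lM (law (ι ⊕ κ) ν) (en β) M (U + en β g) ∂law (ι ⊕ κ) ν
  | 0, U => one_pattern β U
  | M + 1, U => by
    have he := energy_en (ι := ι ⊕ κ) (ν := ν) β
    have hlc := energy_enl (ι := ι) (κ := κ) (ν := ν) β
    have hrc := energy_enr (ι := ι) (κ := κ) (ν := ν) β
    rw [integral_lM_swap he hlc, integral_lM_swap he hrc, integral_lM_swap he he]
    have hI : ∀ {f : ((ι ⊕ κ → ℝ) × ℝ) → (ι ⊕ κ → Bool) → ℝ}, Energy (law (ι ⊕ κ) ν) f →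
        Integrable (fun h => ∫ g, lM (law (ι ⊕ κ) ν) (en β) M (U + en β h + f g) ∂law (ι ⊕ κ) ν)
          (law (ι ⊕ κ) ν) := fun {f} hf => by
      have hc' : Continuous fun h : (ι ⊕ κ → ℝ) × ℝ => U + en β h := continuous_const.add he.cont
      refine ((integrable_const (|lM (law (ι ⊕ κ) ν) (en β) M U| + ∫ g, ‖f g‖ ∂law (ι ⊕ κ) ν)).add he.int).mono'
        ?_ (ae_of_all _ fun h => ?_)
      · have hm : Measurable (Function.uncurry fun h g => lM (law (ι ⊕ κ) ν) (en β) M (U + en β h + f g)) :=
          ((lM_continuous he M).comp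
            ((hc'.comp continuous_fst).add (hf.cont.comp continuous_snd))).measurable
        exact (hm.stronglyMeasurable.integral_prod_right' (ν := law (ι ⊕ κ) ν)).aestronglyMeasurable
      · rw [Real.norm_eq_abs, Pi.add_apply]
        refine abs_integral_le_integral_abs.trans ?_
        have hint := integrable_lM he hf M (U + en β h)
        refine (integral_mono hint.abs
          ((integrable_const (|lM (law (ι ⊕ κ) ν) (en β) M U| + ‖en β h‖)).add hf.int) fun g => ?_).trans_eq ?_
        · simp only [Pi.add_apply]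
          linarith [lM_lip he M U (en β h), lM_lip he M (U + en β h) (f g),
            abs_sub_abs_le_abs_sub (lM (law (ι ⊕ κ) ν) (en β) M (U + en β h)) (lM (law (ι ⊕ κ) ν) (en β) M U),
            abs_sub_abs_le_abs_sub (lM (law (ι ⊕ κ) ν) (en β) M (U + en β h + f g)) (lM (law (ι ⊕ κ) ν) (en β) M (U + en β h))]
        · simp only [Pi.add_apply]
          rw [integral_add (integrable_const _) hf.int]
          simp
          ring
    rw [← integral_const_mul, ← integral_const_mul,
      ← integral_add ((hI hlc).const_mul _) ((hI hrc).const_mul _)]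
    exact integral_mono (((hI hlc).const_mul _).add ((hI hrc).const_mul _)) (hI he) fun h =>
      pattern_mono β M (U + en β h)

/-- Integrals of functions of the first block of coordinates. -/
lemma integral_inl (F : (ι → ℝ) × ℝ → ℝ) (hF : Integrable F (law ι ν)) :
    ∫ ω, F (fun i => ω.1 (Sum.inl i), ω.2) ∂law (ι ⊕ κ) ν = ∫ ω, F ω ∂law ι ν ∧
      Integrable (fun ω : (ι ⊕ κ → ℝ) × ℝ => F (fun i => ω.1 (Sum.inl i), ω.2)) (law (ι ⊕ κ) ν) := by
  have hm0 : MeasurePreserving (fun g : ι ⊕ κ → ℝ => fun i => g (Sum.inl i))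
      (gauss (ι ⊕ κ)) (gauss ι) :=
    measurePreserving_fst.comp
      (measurePreserving_sumPiEquivProdPi (fun _ : ι ⊕ κ => gaussianReal 0 1))
  have hm := hm0.prod (MeasurePreserving.id ν)
  unfold law at hF ⊢
  refine ⟨?_, hm.integrable_comp_of_integrable hF⟩
  rw [← hm.map_eq, integral_map hm.measurable.aemeasurable]
  · rfl
  rw [hm.map_eq]
  exact hF.aestronglyMeasurable

/-- Integrals of functions of the second block of coordinates. -/
lemma integral_inr (F : (κ → ℝ) × ℝ → ℝ) (hF : Integrable F (law κ ν)) :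
    ∫ ω, F (fun i => ω.1 (Sum.inr i), ω.2) ∂law (ι ⊕ κ) ν = ∫ ω, F ω ∂law κ ν ∧
      Integrable (fun ω : (ι ⊕ κ → ℝ) × ℝ => F (fun i => ω.1 (Sum.inr i), ω.2)) (law (ι ⊕ κ) ν) := by
  have hm0 : MeasurePreserving (fun g : ι ⊕ κ → ℝ => fun i => g (Sum.inr i))
      (gauss (ι ⊕ κ)) (gauss κ) :=
    measurePreserving_snd.comp
      (measurePreserving_sumPiEquivProdPi (fun _ : ι ⊕ κ => gaussianReal 0 1))
  have hm := hm0.prod (MeasurePreserving.id ν)
  unfold law at hF ⊢
  refine ⟨?_, hm.integrable_comp_of_integrable hF⟩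
  rw [← hm.map_eq, integral_map hm.measurable.aemeasurable]
  · rfl
  rw [hm.map_eq]
  exact hF.aestronglyMeasurable

/-- A log-weight on the product of two blocks. -/
def joinU (U : (ι → Bool) → ℝ) (V : (κ → Bool) → ℝ) (x : ι ⊕ κ → Bool) : ℝ :=
  U (fun i => x (Sum.inl i)) + V fun i => x (Sum.inr i)

omit [Nonempty ι] [Nonempty κ] in
lemma l0_join (U : (ι → Bool) → ℝ) (V : (κ → Bool) → ℝ) :
    l0 (joinU U V) = l0 U + l0 V := by
  classical
  have hS : ∀ {X : Type} [Fintype X] [Nonempty X] (W : X → ℝ),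
      0 < (∑ x, Real.exp (W x)) / Fintype.card X := fun W =>
    div_pos (sum_pos (fun x _ => Real.exp_pos _) univ_nonempty) (by exact_mod_cast Fintype.card_pos)
  simp only [l0]
  rw [← Real.log_mul (hS U).ne' (hS V).ne', div_mul_div_comm,
    Fintype.card_congr (Equiv.sumArrowEquivProdArrow ι κ Bool), Fintype.card_prod, Nat.cast_mul,
    sum_mul_sum, ← Fintype.sum_prod_type']
  congr 2
  refine Fintype.sum_equiv (Equiv.sumArrowEquivProdArrow ι κ Bool) _ _ fun x => ?_
  simp only [joinU, Real.exp_add]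
  rfl

/-- The averaged log-partition function dominates that of a random split into two blocks. -/
theorem block_two (β : ℝ) :
    ∀ (M : ℕ) (U : (ι → Bool) → ℝ) (V : (κ → Bool) → ℝ),
      binE M (frac ι κ) (fun k => lM (law ι ν) (en β) k U) +
          binE M (1 - frac ι κ) (fun k => lM (law κ ν) (en β) k V) ≤
        lM (law (ι ⊕ κ) ν) (en β) M (joinU U V)
  | 0, U, V => by simp [binE, lM, l0_join]
  | M + 1, U, V => by
    set s := frac ι κ with hs
    have hs0 : 0 ≤ s := by rw [hs, frac]; positivity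
    have hs1 : 0 ≤ 1 - s := by
      have : (0 : ℝ) < Fintype.card ι := by exact_mod_cast Fintype.card_pos
      rw [sub_nonneg, hs, frac, div_le_one (by push_cast; positivity)]
      push_cast
      linarith [(Nat.cast_nonneg (Fintype.card κ) : (0 : ℝ) ≤ _)]
    have he := energy_en (ι := ι ⊕ κ) (ν := ν) β
    refine le_trans ?_ (pattern_mono β M (joinU U V))
    have el : ∀ g : (ι ⊕ κ → ℝ) × ℝ, joinU U V + enl β g =
        joinU (U + en β (fun i => g.1 (Sum.inl i), g.2)) V := fun g => funext fun x => by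
      simp only [Pi.add_apply, joinU, enl]; ring
    have er : ∀ g : (ι ⊕ κ → ℝ) × ℝ, joinU U V + enr β g =
        joinU U (V + en β (fun i => g.1 (Sum.inr i), g.2)) := fun g => funext fun x => by
      simp only [Pi.add_apply, joinU, enr]; ring
    -- the binomial averages commute with the average over the first pattern
    have hbin : ∀ {η : Type} [Fintype η] [DecidableEq η] [Nonempty η] (W : (η → Bool) → ℝ) (t : ℝ) (m : ℕ),
        Integrable (fun g => binE m t fun k => lM (law η ν) (en β) k (W + en β g)) (law η ν) ∧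
          ∫ g, binE m t (fun k => lM (law η ν) (en β) k (W + en β g)) ∂law η ν =
            binE m t fun k => lM (law η ν) (en β) (k + 1) W := fun {η} _ _ _ W t m =>
      Vale.Agent.P157.binE_integral m (fun k g => lM (law η ν) (en β) k (W + en β g))
        fun k => integrable_lM (energy_en β) (energy_en β) k W
    have h1 : binE M s (fun k => lM (law ι ν) (en β) (k + 1) U) + binE M (1 - s) (fun k => lM (law κ ν) (en β) k V) ≤
        ∫ g, lM (law (ι ⊕ κ) ν) (en β) M (joinU U V + enl β g) ∂law (ι ⊕ κ) ν := by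
      obtain ⟨i1, e1⟩ := hbin U s M
      obtain ⟨e2, i2⟩ := integral_inl (κ := κ) _ i1
      rw [← e1, ← e2]
      refine le_trans (le_of_eq ?_) (integral_mono (i2.add (integrable_const
        (binE M (1 - s) fun k => lM (law κ ν) (en β) k V))) (integrable_lM he (energy_enl β) M _) fun g => ?_)
      · simp only [Pi.add_apply]
        rw [integral_add i2 (integrable_const _)]
        simp
      · simp only [Pi.add_apply, el]
        exact block_two β M _ _
    have h2 : binE M s (fun k => lM (law ι ν) (en β) k U) + binE M (1 - s) (fun k => lM (law κ ν) (en β) (k + 1) V) ≤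
        ∫ g, lM (law (ι ⊕ κ) ν) (en β) M (joinU U V + enr β g) ∂law (ι ⊕ κ) ν := by
      obtain ⟨i1, e1⟩ := hbin V (1 - s) M
      obtain ⟨e2, i2⟩ := integral_inr (ι := ι) _ i1
      rw [← e1, ← e2]
      refine le_trans (le_of_eq ?_) (integral_mono ((integrable_const
        (binE M s fun k => lM (law ι ν) (en β) k U)).add i2) (integrable_lM he (energy_enr β) M _) fun g => ?_)
      · simp only [Pi.add_apply]
        rw [integral_add (integrable_const _) i2]
        simp
      · simp only [Pi.add_apply, er]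
        exact block_two β M _ _
    simp only [binE, sub_sub_cancel]
    have := mul_le_mul_of_nonneg_left h1 hs0
    have := mul_le_mul_of_nonneg_left h2 hs1
    linarith

end block

/-- Relabelling the sites. -/
lemma lM_reindex (e : ι ≃ κ) (β : ℝ) :
    ∀ (M : ℕ) (U : (ι → Bool) → ℝ),
      lM (law ι ν) (en β) M U = lM (law κ ν) (en β) M (fun y : κ → Bool => U fun i => y (e i))
  | 0, U => by
    classical
    simp only [lM, l0]
    rw [Fintype.card_congr (Equiv.arrowCongr e (Equiv.refl Bool))]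
    congr 2
    refine Fintype.sum_equiv (Equiv.arrowCongr e (Equiv.refl Bool)) _ _ fun x => ?_
    simp [Equiv.arrowCongr]
  | M + 1, U => by
    simp only [lM]
    have h := measurePreserving_arrowCongr' (μ := fun _ : ι => gaussianReal 0 1)
      (ν := fun _ : κ => gaussianReal 0 1) e (MeasurableEquiv.refl ℝ) fun _ => MeasurePreserving.id _
    have h' := h.prod (MeasurePreserving.id ν)
    rw [law, law, gauss, gauss, ← h'.integral_comp
      ((MeasurableEquiv.measurableEmbedding _).prodMap MeasurableEmbedding.id)]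
    refine integral_congr_ae (ae_of_all _ fun g => ?_)
    simp only
    change lM (law ι ν) (en β) M (U + en β g) = lM (law κ ν) (en β) M _
    rw [lM_reindex e β M (U + en β g)]
    congr 1
    funext y
    simp only [Pi.add_apply, en, uvec, Fintype.card_congr e]
    congr 3
    refine Fintype.sum_equiv e _ _ fun i => ?_
    simp [MeasurableEquiv.arrowCongr', Equiv.arrowCongr', Equiv.arrowCongr, Prod.map]

/-- The averaged log-partition function of `N` sites and `M` patterns. -/
noncomputable def wF (β : ℝ) (ν : Measure ℝ) (N M : ℕ) : ℝ :=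
  lM (law (Fin N) ν) (en (ι := Fin N) β) M 0

lemma wF_split_two (β : ℝ) {a b : ℕ} (ha : 1 ≤ a) (hb : 1 ≤ b) (M : ℕ) :
    binE M ((a : ℝ) / (a + b : ℕ)) (wF β ν a) + binE M (1 - (a : ℝ) / (a + b : ℕ)) (wF β ν b) ≤
      wF β ν (a + b) M := by
  have : Nonempty (Fin a) := ⟨⟨0, ha⟩⟩
  have : Nonempty (Fin b) := ⟨⟨0, hb⟩⟩
  have h := block_two (ι := Fin a) (κ := Fin b) (ν := ν) β M 0 0
  have e : joinU (0 : (Fin a → Bool) → ℝ) (0 : (Fin b → Bool) → ℝ) = 0 :=
    funext fun x => by simp [joinU]
  rw [e, lM_reindex (ν := ν) finSumFinEquiv β M 0] at h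
  simp only [frac, Fintype.card_fin] at h
  exact h

lemma wF_split (β : ℝ) (J : Type) [Fintype J] (n : J → ℕ) (N : ℕ)
    (hn : ∀ j, 1 ≤ n j) (hN : ∑ j, n j = N) (hN1 : 1 ≤ N) (M : ℕ) :
    ∑ j, binE M ((n j : ℝ) / N) (wF β ν (n j)) ≤ wF β ν N M := by
  classical
  suffices key : ∀ S : Finset J, S.Nonempty → ∀ M,
      ∑ j ∈ S, binE M ((n j : ℝ) / (∑ i ∈ S, n i : ℕ)) (wF β ν (n j)) ≤ wF β ν (∑ i ∈ S, n i) M by
    have hne : (univ : Finset J).Nonempty := by
      rcases (univ : Finset J).eq_empty_or_nonempty with h | h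
      · simp [h] at hN; omega
      · exact h
    simpa [hN] using key univ hne M
  intro S hS
  induction hS using Finset.Nonempty.cons_induction with
  | singleton a =>
    intro M
    simp only [sum_singleton]
    rw [div_self (by exact_mod_cast (by have := hn a; omega : n a ≠ 0))]
    have : ∀ (m : ℕ) (F : ℕ → ℝ), binE m 1 F = F m := fun m => by
      induction m with
      | zero => intro F; rfl
      | succ m ih => intro F; simp [binE, ih]
    rw [this]
  | cons a T ha hT ih =>
    intro M
    set m := ∑ i ∈ T, n i with hm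
    have hm1 : 1 ≤ m := by
      obtain ⟨j, hj⟩ := hT
      exact (hn j).trans (single_le_sum (fun i _ => Nat.zero_le (n i)) hj)
    simp only [cons_eq_insert, sum_insert ha, ← hm]
    refine le_trans ?_ (wF_split_two β (hn a) hm1 M)
    refine add_le_add le_rfl ?_
    have ht : (0 : ℝ) < (n a + m : ℕ) := by exact_mod_cast (by omega : 0 < n a + m)
    have hm0 : (0 : ℝ) < m := by exact_mod_cast hm1
    have e1 : 1 - (n a : ℝ) / (n a + m : ℕ) = (m : ℝ) / (n a + m : ℕ) := by
      rw [one_sub_div ht.ne']; push_cast; ring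
    rw [e1]
    refine le_trans (le_of_eq ?_) (binE_mono (by positivity)
      ((div_le_one ht).2 (by exact_mod_cast (by omega : m ≤ n a + m))) M fun k _ => ih k)
    have hswap : ∀ (T : Finset J) (F : J → ℕ → ℝ) (t : ℝ) (M : ℕ),
        binE M t (fun k => ∑ j ∈ T, F j k) = ∑ j ∈ T, binE M t (F j) := by
      intro T F t M
      induction T using Finset.induction_on with
      | empty => simp [Vale.Agent.P157.binE_const]
      | @insert b T hb ih2 => simp only [sum_insert hb, binE_add, ih2]
    rw [hswap]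
    refine sum_congr rfl fun j _ => ?_
    rw [binE_thin]
    congr 1
    field_simp

/-- The limit of the averaged pressures exists. -/
theorem exists_limit (β : ℝ) {α : ℝ} (hα : 0 < α) :
    ∃ L, Filter.Tendsto (fun N : ℕ => wF β ν N ⌊α * N⌋₊ / N) Filter.atTop (nhds L) := by
  have hinc : ∀ N k, |wF β ν N (k + 1) - wF β ν N k| ≤ 4 := fun N k => by
    rcases Nat.eq_zero_or_pos N with rfl | hN
    · refine le_of_eq_of_le ?_ (by norm_num : (0 : ℝ) ≤ 4)
      have e : ∀ (g : (Fin 0 → ℝ) × ℝ), en β g = 0 := fun g => funext fun x => by simp [en]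
      simp [wF, lM, e]
    · have : Nonempty (Fin N) := ⟨⟨0, hN⟩⟩
      have h := abs_increment_le (energy_en (ι := Fin N) (ν := ν) β) (en_increment_sq (ι := Fin N) (ν := ν) β) k 0
      simp only [wF]
      linarith
  have hS : Vale.Agent.P157.SuperAdd (wF β ν) 4 := by
    refine ⟨fun N => ?_, fun N k l => ?_, fun J _ n N hn hN hN1 M => wF_split β J n N hn hN hN1 M⟩
    · simp only [wF, lM, l0, Pi.zero_apply, Real.exp_zero, sum_const, card_univ, nsmul_eq_mul,
        mul_one]
      rw [div_self (by exact_mod_cast Fintype.card_ne_zero), Real.log_one]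
    · suffices h : ∀ d k : ℕ, |wF β ν N (k + d) - wF β ν N k| ≤ 4 * d by
        rcases le_total k l with hkl | hkl
        · obtain ⟨d, rfl⟩ := Nat.exists_eq_add_of_le hkl
          rw [abs_sub_comm]
          refine (h d k).trans (le_of_eq ?_)
          push_cast
          simp
        · obtain ⟨d, rfl⟩ := Nat.exists_eq_add_of_le hkl
          refine (h d l).trans (le_of_eq ?_)
          push_cast
          simp
      intro d k
      induction d with
      | zero => simp
      | succ d ih =>
        have h1 := hinc N (k + d)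
        rw [← add_assoc]
        push_cast
        linarith [abs_sub_le (wF β ν N (k + d + 1)) (wF β ν N (k + d)) (wF β ν N k)]
  exact ⟨_, hS.tendsto_limit hα⟩

end Vale.Agent.P166W
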