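import Vale.Agent.P166W.Derivs
import Vale.Agent.P166W.Moments

/-!
Concavity in the covariance of `E log ∑ p exp (c z²)` for `|c| ≤ 1/256` and unit variances.
-/

namespace Vale.Agent.P166W

open MeasureTheory ProbabilityTheory Finset

variable {X : Type*} [Fintype X] [Nonempty X] {c : ℝ} {p : X → ℝ}

/-- The pairwise integrand of the second derivative. -/
noncomputable def pairT (c : ℝ) (p : X → ℝ) (k l : X) (z : X → ℝ) : ℝ :=
  wt c p k z * wt c p l z * (1 - 2 * |c| * (z k ^ 2 + z l ^ 2)
    - 8 * |c| * (1 + 2 * |c| * z k ^ 2) * ∑ m, wt c p m z * z m ^ 2)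

lemma dd_pair (x y : ℝ) (c : ℝ) :
    4 * c ^ 2 * (1 - 2 * |c| * (x ^ 2 + y ^ 2)) ≤
      (2 * c + 4 * c ^ 2 * (x * x)) * (2 * c + 4 * c ^ 2 * (y * y)) := by
  have h : (2 * c + 4 * c ^ 2 * (x * x)) * (2 * c + 4 * c ^ 2 * (y * y)) =
      4 * c ^ 2 * (1 + 2 * c * x ^ 2 + 2 * c * y ^ 2 + 4 * c ^ 2 * (x * y) ^ 2) := by ring
  rw [h]
  refine mul_le_mul_of_nonneg_left ?_ (by positivity)
  have h1 := neg_abs_le c
  nlinarith [sq_nonneg x, sq_nonneg y, mul_nonneg (sq_nonneg c) (sq_nonneg (x * y))]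

/-- The pointwise bound on the fourth derivative. -/
lemma quad_bound (hp : ∀ x, 0 < p x) (Δ : X → X → ℝ) (z : X → ℝ) :
    -2 * (∑ x, ∑ y, Δ x y ^ 2 * (dd c p x z * dd c p y z))
        + 8 * (∑ x, dd c p x z * uu c p Δ x z ^ 2) - 6 * qq c p Δ z ^ 2
      ≤ -(8 * c ^ 2) * ∑ x, ∑ y, Δ x y ^ 2 * pairT c p x y z := by
  set w := fun x => wt c p x z with hw
  have hw0 : ∀ x, 0 ≤ w x := fun x => (wt_mem hp x z).1
  set M := ∑ m, w m * z m ^ 2 with hM
  have hM0 : 0 ≤ M := sum_nonneg fun m _ => mul_nonneg (hw0 m) (sq_nonneg _)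
  have hQ : 4 * c ^ 2 * ∑ x, ∑ y, Δ x y ^ 2 * (w x * w y * (1 - 2 * |c| * (z x ^ 2 + z y ^ 2)))
      ≤ ∑ x, ∑ y, Δ x y ^ 2 * (dd c p x z * dd c p y z) := by
    simp only [mul_sum]
    refine sum_le_sum fun x _ => sum_le_sum fun y _ => ?_
    have := mul_le_mul_of_nonneg_left (dd_pair (z x) (z y) c)
      (mul_nonneg (sq_nonneg (Δ x y)) (mul_nonneg (hw0 x) (hw0 y)))
    simp only [dd, hw] at this ⊢
    linarith
  have hU : ∀ x, dd c p x z * uu c p Δ x z ^ 2 ≤
      8 * c ^ 2 * |c| * ∑ y, Δ x y ^ 2 * (w x * w y * ((1 + 2 * |c| * z x ^ 2) * M)) := by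
    intro x
    have hcs : uu c p Δ x z ^ 2 ≤ (∑ y, Δ x y ^ 2 * w y) * (4 * c ^ 2 * M) := by
      rw [uu, hM, mul_sum (a := 4 * c ^ 2)]
      refine sum_sq_le_sum_mul_sum_of_sq_le_mul _ (fun y _ => mul_nonneg (sq_nonneg _) (hw0 y))
        (fun y _ => by have := hw0 y; positivity) fun y _ => le_of_eq ?_
      simp only [bb, hw]
      ring
    have hd : dd c p x z ≤ w x * (2 * |c| * (1 + 2 * |c| * z x ^ 2)) := by
      refine mul_le_mul_of_nonneg_left ?_ (hw0 x)
      have h1 := le_abs_self c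
      nlinarith [sq_abs c]
    refine (mul_le_mul_of_nonneg_right hd (sq_nonneg _)).trans ?_
    refine (mul_le_mul_of_nonneg_left hcs
      (mul_nonneg (hw0 x) (by positivity))).trans (le_of_eq ?_)
    simp only [mul_sum, sum_mul]
    exact sum_congr rfl fun y _ => by ring
  have hU' := sum_le_sum (s := univ) fun x _ => hU x
  rw [← mul_sum] at hU'
  have hsplit : ∑ x, ∑ y, Δ x y ^ 2 * pairT c p x y z =
      (∑ x, ∑ y, Δ x y ^ 2 * (w x * w y * (1 - 2 * |c| * (z x ^ 2 + z y ^ 2)))) -
      8 * |c| * ∑ x, ∑ y, Δ x y ^ 2 * (w x * w y * ((1 + 2 * |c| * z x ^ 2) * M)) := by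
    rw [mul_sum, ← sum_sub_distrib]
    refine sum_congr rfl fun x _ => ?_
    rw [mul_sum, ← sum_sub_distrib]
    exact sum_congr rfl fun y _ => by simp only [pairT, hw, hM]; ring
  rw [hsplit]
  linarith [sq_nonneg (qq c p Δ z)]

/-- The exponential bound used for the positive terms. -/
noncomputable def ex (t : ℝ) : ℝ := Real.exp (t ^ 2 / 4)

lemma sq_le_exp (t : ℝ) : t ^ 2 ≤ 12 * Real.exp (t ^ 2 / 32) := by
  have h := Real.add_one_le_exp (t ^ 2 / 32 - 1)
  rw [Real.exp_sub] at h
  have he : (2.7 : ℝ) < Real.exp 1 := lt_trans (by norm_num) Real.exp_one_gt_d9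
  have := (le_div_iff₀ (Real.exp_pos 1)).1 (le_of_eq_of_le (by ring : t ^ 2 / 32 = t ^ 2 / 32 - 1 + 1) h)
  nlinarith [Real.exp_pos (t ^ 2 / 32), sq_nonneg t]

lemma exp_four {θ : Fin 4 → ℝ} (hθ : ∀ i, θ i ≤ 1 / 16) (t : Fin 4 → ℝ) :
    Real.exp (∑ i, θ i * t i ^ 2) ≤ (1 / 4) * ∑ i, ex (t i) := by
  have h1 : ∑ i, θ i * t i ^ 2 ≤ ∑ i, (1 / 4 : ℝ) * (t i ^ 2 / 4) :=
    sum_le_sum fun i _ => by nlinarith [hθ i, sq_nonneg (t i)]
  refine (Real.exp_le_exp.2 h1).trans ?_
  have h2 := convexOn_exp.map_sum_le (t := univ) (w := fun _ : Fin 4 => (1 / 4 : ℝ))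
    (p := fun i => t i ^ 2 / 4) (fun _ _ => by norm_num) (by simp) fun _ _ => Set.mem_univ _
  simpa [ex, mul_sum, smul_eq_mul] using h2

variable (c p) in
/-- The averaged exponential bound. -/
noncomputable def avgEx (k l : X) (z : X → ℝ) : ℝ :=
  12 * (1 / 4 * (ex (z k) + ex (z l) + 2 * ∑ m, p m * ex (z m)))

/-- The pointwise lower bound on the pairwise integrand. -/
lemma pairT_ge (hp : ∀ x, 0 < p x) (hp1 : ∑ x, p x = 1) (hc : |c| ≤ 1 / 256) (k l : X)
    (z : X → ℝ) :
    p k * p l * (1 + c * (z k ^ 2 + z l ^ 2) - 2 * (zp c p z - 1)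
        - |c| * (2 * avgEx p k l z + 2 * avgEx p l k z + 8 * avgEx p k l z))
      ≤ pairT c p k l z := by
  set Z := zp c p z with hZdef
  have hZ : 0 < Z := zp_pos hp z
  set q := Real.exp (c * (z k ^ 2 + z l ^ 2)) / Z ^ 2 with hq
  have hq0 : 0 < q := by positivity
  have hww : wt c p k z * wt c p l z = p k * p l * q := by
    rw [hq, mul_add, Real.exp_add, wt, wt, ← hZdef]
    field_simp
  have hlo : 1 + c * (z k ^ 2 + z l ^ 2) - 2 * (Z - 1) ≤ q := by
    have e : q = Real.exp (c * (z k ^ 2 + z l ^ 2) - 2 * Real.log Z) := by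
      rw [Real.exp_sub, hq]
      congr 1
      rw [show (2 : ℝ) = ((2 : ℕ) : ℝ) by norm_num, Real.exp_nat_mul, Real.exp_log hZ]
    have := Real.add_one_le_exp (c * (z k ^ 2 + z l ^ 2) - 2 * Real.log Z)
    have := Real.log_le_sub_one_of_pos hZ
    linarith
  have hinv : ∀ n : ℕ, 1 / Z ^ n ≤ ∑ m, p m * Real.exp (-(n : ℝ) * c * z m ^ 2) := fun n => by
    have h1 : Real.exp (∑ m, p m * (c * z m ^ 2)) ≤ Z :=
      convexOn_exp.map_sum_le (t := univ) (w := p) (p := fun m => c * z m ^ 2)
        (fun m _ => (hp m).le) hp1 fun _ _ => Set.mem_univ _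
    have h2 := convexOn_exp.map_sum_le (t := univ) (w := p)
      (p := fun m => -(n : ℝ) * c * z m ^ 2) (fun m _ => (hp m).le) hp1 fun _ _ => Set.mem_univ _
    simp only [smul_eq_mul] at h2
    refine le_trans ?_ h2
    rw [show ∑ m, p m * (-(n : ℝ) * c * z m ^ 2) = -((n : ℕ) * ∑ m, p m * (c * z m ^ 2)) by
      rw [mul_sum, ← sum_neg_distrib]; exact sum_congr rfl fun m _ => by ring,
      Real.exp_neg, Real.exp_nat_mul, one_div]
    exact inv_anti₀ (by positivity) (pow_le_pow_left₀ (Real.exp_pos _).le h1 n)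
  have hc0 := abs_nonneg c
  have hcc := le_abs_self c
  have hcn := neg_abs_le c
  have hex : ∀ t, 0 ≤ ex t := fun t => (Real.exp_pos _).le
  have h12 : ∀ k l : X, q = Real.exp (c * (z k ^ 2 + z l ^ 2)) / Z ^ 2 →
      q * z k ^ 2 ≤ avgEx p k l z := by
    intro k l hkl
    calc q * z k ^ 2 ≤ (Real.exp (c * (z k ^ 2 + z l ^ 2)) *
          ∑ m, p m * Real.exp (-((2 : ℕ) : ℝ) * c * z m ^ 2)) * (12 * Real.exp (z k ^ 2 / 32)) := by
          refine mul_le_mul ?_ (sq_le_exp _) (sq_nonneg _)
            (mul_nonneg (Real.exp_pos _).le (sum_nonneg fun m _ =>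
              mul_nonneg (hp m).le (Real.exp_pos _).le))
          rw [hkl, div_eq_mul_one_div]
          exact mul_le_mul_of_nonneg_left (hinv 2) (Real.exp_pos _).le
      _ = 12 * ∑ m, p m * Real.exp
          (∑ i, ![c + 1 / 32, c, -c, -c] i * ![z k, z l, z m, z m] i ^ 2) := by
          rw [mul_sum, mul_sum, sum_mul]
          refine sum_congr rfl fun m _ => ?_
          simp only [Fin.sum_univ_four, Matrix.cons_val]
          rw [show (c + 1 / 32) * z k ^ 2 + c * z l ^ 2 + -c * z m ^ 2 + -c * z m ^ 2 =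
            c * (z k ^ 2 + z l ^ 2) + -((2 : ℕ) : ℝ) * c * z m ^ 2 + z k ^ 2 / 32 by
              push_cast; ring, Real.exp_add, Real.exp_add]
          ring
      _ ≤ 12 * ∑ m, p m * (1 / 4 * (ex (z k) + ex (z l) + ex (z m) + ex (z m))) := by
          refine mul_le_mul_of_nonneg_left (sum_le_sum fun m _ => mul_le_mul_of_nonneg_left
            ((exp_four (fun i => ?_) _).trans (le_of_eq ?_)) (hp m).le) (by norm_num)
          · fin_cases i <;> simp <;> linarith
          · simp [Fin.sum_univ_four]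
      _ = avgEx p k l z := by
          have e : ∀ m, p m * (1 / 4 * (ex (z k) + ex (z l) + ex (z m) + ex (z m))) =
              1 / 4 * (ex (z k) + ex (z l)) * p m + 1 / 2 * (p m * ex (z m)) := fun m => by ring
          rw [avgEx, sum_congr rfl fun m _ => e m, sum_add_distrib, ← mul_sum, ← mul_sum, hp1]
          ring
  have h3 : q * ((1 + 2 * |c| * z k ^ 2) * ∑ m, wt c p m z * z m ^ 2) ≤ avgEx p k l z := by
    calc q * ((1 + 2 * |c| * z k ^ 2) * ∑ m, wt c p m z * z m ^ 2)
        ≤ Real.exp (c * (z k ^ 2 + z l ^ 2)) * (1 + 2 * |c| * z k ^ 2) *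
          ((∑ m, p m * Real.exp (c * z m ^ 2) * (12 * Real.exp (z m ^ 2 / 32))) *
            ∑ n, p n * Real.exp (-((3 : ℕ) : ℝ) * c * z n ^ 2)) := by
          have e : q * ((1 + 2 * |c| * z k ^ 2) * ∑ m, wt c p m z * z m ^ 2) =
              Real.exp (c * (z k ^ 2 + z l ^ 2)) * (1 + 2 * |c| * z k ^ 2) *
              ((∑ m, p m * Real.exp (c * z m ^ 2) * z m ^ 2) * (1 / Z ^ 3)) := by
            simp only [hq, wt, ← hZdef, div_mul_eq_mul_div, ← sum_div]
            field_simp
          rw [e]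
          refine mul_le_mul_of_nonneg_left (mul_le_mul (sum_le_sum fun m _ => ?_) (hinv 3)
            (by positivity) (sum_nonneg fun m _ => by have := hp m; positivity)) (by positivity)
          exact mul_le_mul_of_nonneg_left (sq_le_exp _) (by have := hp m; positivity)
      _ ≤ Real.exp (c * (z k ^ 2 + z l ^ 2)) * Real.exp (2 * |c| * z k ^ 2) *
          ((∑ m, p m * Real.exp (c * z m ^ 2) * (12 * Real.exp (z m ^ 2 / 32))) *
            ∑ n, p n * Real.exp (-((3 : ℕ) : ℝ) * c * z n ^ 2)) := by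
          refine mul_le_mul_of_nonneg_right (mul_le_mul_of_nonneg_left ?_ (Real.exp_pos _).le)
            (mul_nonneg (sum_nonneg fun m _ => by have := hp m; positivity)
              (sum_nonneg fun m _ => by have := hp m; positivity))
          linarith [Real.add_one_le_exp (2 * |c| * z k ^ 2)]
      _ = 12 * ∑ m, ∑ n, p m * p n * Real.exp
          (∑ i, ![c + 2 * |c|, c, c + 1 / 32, -3 * c] i * ![z k, z l, z m, z n] i ^ 2) := by
          simp only [mul_sum, sum_mul]
          rw [sum_comm]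
          refine sum_congr rfl fun m _ => sum_congr rfl fun n _ => ?_
          simp only [Fin.sum_univ_four, Matrix.cons_val]
          rw [show (c + 2 * |c|) * z k ^ 2 + c * z l ^ 2 + (c + 1 / 32) * z m ^ 2 + -3 * c * z n ^ 2 =
            c * (z k ^ 2 + z l ^ 2) + 2 * |c| * z k ^ 2 + (c * z m ^ 2 + z m ^ 2 / 32) +
              -((3 : ℕ) : ℝ) * c * z n ^ 2 by push_cast; ring,
            Real.exp_add, Real.exp_add, Real.exp_add, Real.exp_add]
          ring
      _ ≤ 12 * ∑ m, ∑ n, p m * p n * (1 / 4 * (ex (z k) + ex (z l) + ex (z m) + ex (z n))) := by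
          refine mul_le_mul_of_nonneg_left (sum_le_sum fun m _ => sum_le_sum fun n _ =>
            mul_le_mul_of_nonneg_left ((exp_four (fun i => ?_) _).trans (le_of_eq ?_))
              (mul_nonneg (hp m).le (hp n).le)) (by norm_num)
          · fin_cases i <;> simp <;> linarith
          · simp [Fin.sum_univ_four]
      _ = avgEx p k l z := by
          have e : ∀ m n, p m * p n * (1 / 4 * (ex (z k) + ex (z l) + ex (z m) + ex (z n))) =
              1 / 4 * (ex (z k) + ex (z l)) * (p m * p n) + 1 / 4 * (p m * ex (z m) * p n) +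
                1 / 4 * (p m * (p n * ex (z n))) := fun m n => by ring
          simp only [e, sum_add_distrib, ← mul_sum, hp1, mul_one]
          rw [← sum_mul, hp1, avgEx]
          ring
  have h1 := h12 k l rfl
  have h2 := h12 l k (by rw [hq, add_comm])
  unfold pairT
  rw [hww, mul_assoc (p k * p l)]
  refine mul_le_mul_of_nonneg_left ?_ (mul_nonneg (hp k).le (hp l).le)
  have := mul_le_mul_of_nonneg_left h1 hc0
  have := mul_le_mul_of_nonneg_left h2 hc0
  have := mul_le_mul_of_nonneg_left h3 hc0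
  linarith

variable {ι : Type*} [Fintype ι] {v : X → ι → ℝ}

lemma integrable_zterm (hc : |c| ≤ 1 / 256) {u : ι → ℝ} (hu : ∑ i, u i * u i = 1) :
    Integrable (fun g : ι → ℝ => Real.exp (c * (∑ i, u i * g i) ^ 2)) (gauss ι) ∧
      ∫ g, Real.exp (c * (∑ i, u i * g i) ^ 2) ∂gauss ι ≤ 1 + 2 * |c| := by
  have hb : ∀ t : ℝ, Real.exp (c * t ^ 2) ≤ 1 + 4 * |c| * (ex t - 1) := fun t => by
    have h4 : 4 * |c| ≤ 1 := by linarith
    have h := convexOn_exp.2 (Set.mem_univ (t ^ 2 / 4)) (Set.mem_univ (0 : ℝ))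
      (show 0 ≤ 4 * |c| by positivity) (show 0 ≤ 1 - 4 * |c| by linarith) (by ring)
    simp only [smul_eq_mul, mul_zero, add_zero, Real.exp_zero, mul_one] at h
    refine (Real.exp_le_exp.2 ?_).trans (h.trans (le_of_eq (by rw [ex]; ring)))
    nlinarith [le_abs_self c, sq_nonneg t]
  have hex : Integrable (fun g : ι → ℝ => 1 + 4 * |c| * (ex (∑ i, u i * g i) - 1)) (gauss ι) :=
    (integrable_const _).add (((integrable_exp_lin hu).sub (integrable_const _)).const_mul _)
  have hi : Integrable (fun g : ι → ℝ => Real.exp (c * (∑ i, u i * g i) ^ 2)) (gauss ι) :=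
    hex.mono' (Continuous.aestronglyMeasurable (by fun_prop)) (ae_of_all _ fun g => by
      rw [Real.norm_eq_abs, abs_of_pos (Real.exp_pos _)]; exact hb _)
  refine ⟨hi, (integral_mono hi hex fun g => hb _).trans ?_⟩
  simp only [ex]
  have i0 : Integrable (fun g : ι → ℝ => Real.exp ((∑ i, u i * g i) ^ 2 / 4) - 1) (gauss ι) :=
    (integrable_exp_lin hu).sub (integrable_const _)
  rw [integral_add (integrable_const _) (i0.const_mul _), integral_const_mul,
    integral_sub (integrable_exp_lin hu) (integrable_const _)]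
  have := integral_exp_lin_le hu
  simp
  nlinarith [abs_nonneg c]

/-- The averaged pairwise integrand is nonnegative. -/
lemma integral_pairT_nonneg (hp : ∀ x, 0 < p x) (hp1 : ∑ x, p x = 1) (hc : |c| ≤ 1 / 256)
    (hv : ∀ x, ∑ i, v x i * v x i = 1) (k l : X)
    (hint : Integrable (fun g : ι → ℝ => pairT c p k l fun x => ∑ i, v x i * g i) (gauss ι)) :
    0 ≤ ∫ g, pairT c p k l (fun x => ∑ i, v x i * g i) ∂gauss ι := by
  set z : (ι → ℝ) → X → ℝ := fun g x => ∑ i, v x i * g i with hz
  have iS := fun x => integrable_sq_lin (hv x)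
  have iE : ∀ x, Integrable (fun g => ex (z g x)) (gauss ι) := fun x => integrable_exp_lin (hv x)
  have bE : ∀ x, ∫ g, ex (z g x) ∂gauss ι ≤ 3 / 2 := fun x => integral_exp_lin_le (hv x)
  have iA : ∀ k l, Integrable (fun g => avgEx p k l (z g)) (gauss ι) := fun k l =>
    ((((iE k).add (iE l)).add
      ((integrable_finsetSum _ fun m _ => (iE m).const_mul (p m)).const_mul 2)).const_mul _).const_mul _
  have bA : ∀ k l, ∫ g, avgEx p k l (z g) ∂gauss ι ≤ 18 := fun k l => by
    unfold avgEx
    rw [integral_const_mul, integral_const_mul, integral_add, integral_add (iE k) (iE l),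
      integral_const_mul, integral_finsetSum _ fun m _ => (iE m).const_mul (p m)]
    · simp only [integral_const_mul]
      have h : ∑ m, p m * ∫ g, ex (z g m) ∂gauss ι ≤ ∑ m, p m * (3 / 2) :=
        sum_le_sum fun m _ => mul_le_mul_of_nonneg_left (bE m) (hp m).le
      rw [← sum_mul, hp1] at h
      linarith [bE k, bE l]
    · exact (iE k).add (iE l)
    · exact (integrable_finsetSum _ fun m _ => (iE m).const_mul (p m)).const_mul 2
  have iZ : Integrable (fun g => zp c p (z g)) (gauss ι) :=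
    integrable_finsetSum _ fun m _ => (integrable_zterm hc (hv m)).1.const_mul (p m)
  have bZ : ∫ g, zp c p (z g) ∂gauss ι ≤ 1 + 2 * |c| := by
    unfold zp
    rw [integral_finsetSum _ fun m _ => (integrable_zterm hc (hv m)).1.const_mul (p m)]
    simp only [integral_const_mul]
    refine (sum_le_sum fun m _ =>
      mul_le_mul_of_nonneg_left (integrable_zterm hc (hv m)).2 (hp m).le).trans (le_of_eq ?_)
    rw [← sum_mul, hp1, one_mul]
  have i0 : Integrable (fun g => z g k ^ 2 + z g l ^ 2) (gauss ι) := (iS k).1.add (iS l).1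
  have i1 : Integrable (fun g => c * (z g k ^ 2 + z g l ^ 2)) (gauss ι) := i0.const_mul c
  have i2 : Integrable (fun g => 1 + c * (z g k ^ 2 + z g l ^ 2)) (gauss ι) :=
    (integrable_const _).add i1
  have i3 : Integrable (fun g => 2 * (zp c p (z g) - 1)) (gauss ι) :=
    (iZ.sub (integrable_const _)).const_mul 2
  have i23 : Integrable (fun g => 1 + c * (z g k ^ 2 + z g l ^ 2) - 2 * (zp c p (z g) - 1))
      (gauss ι) := i2.sub i3
  have i5 : Integrable (fun g => 2 * avgEx p k l (z g) + 2 * avgEx p l k (z g)) (gauss ι) :=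
    ((iA k l).const_mul 2).add ((iA l k).const_mul 2)
  have i4 : Integrable (fun g => |c| * (2 * avgEx p k l (z g) + 2 * avgEx p l k (z g) +
      8 * avgEx p k l (z g))) (gauss ι) :=
    (i5.add ((iA k l).const_mul 8)).const_mul |c|
  refine le_trans ?_ (integral_mono ((i23.sub i4).const_mul (p k * p l)) hint
    fun g => pairT_ge hp hp1 hc k l (z g))
  simp only [Pi.sub_apply]
  rw [integral_const_mul]
  refine mul_nonneg (mul_nonneg (hp k).le (hp l).le) ?_
  rw [integral_sub i23 i4, integral_sub i2 i3, integral_add (integrable_const _) i1,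
    integral_const_mul, integral_const_mul, integral_const_mul, integral_add (iS k).1 (iS l).1,
    integral_sub iZ (integrable_const _),
    integral_add i5 ((iA k l).const_mul 8),
    integral_add ((iA k l).const_mul 2) ((iA l k).const_mul 2), integral_const_mul,
    integral_const_mul, integral_const_mul, (iS k).2, (iS l).2]
  simp only [integral_const, probReal_univ, one_smul]
  have := mul_le_mul_of_nonneg_left (bA k l) (abs_nonneg c)
  have := mul_le_mul_of_nonneg_left (bA l k) (abs_nonneg c)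
  have := neg_abs_le c
  linarith

/-- The one-pattern functional is concave along the interpolation. -/
theorem interp_concave (hp : ∀ x, 0 < p x) (hp1 : ∑ x, p x = 1) (hc : |c| ≤ 1 / 256)
    (a b : X → ι → ℝ) (horth : ∀ x y, ∑ i, a x i * b y i = 0)
    (ha : ∀ x, ∑ i, a x i * a x i = 1) (hb : ∀ x, ∑ i, b x i * b x i = 1)
    {s : ℝ} (hs0 : 0 ≤ s) (hs1 : s ≤ 1) :
    (1 - s) * (∫ g, Real.log (zp c p fun x => ∑ i, a x i * g i) ∂gauss ι) +
        s * (∫ g, Real.log (zp c p fun x => ∑ i, b x i * g i) ∂gauss ι) ≤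
      ∫ g, Real.log (zp c p (Z a b s g)) ∂gauss ι := by
  set Δ := gramDiff a b
  have hsym : ∀ x y, Δ x y = Δ y x := fun x y => by simp only [Δ, gramDiff, mul_comm]
  have hdiag : ∀ x, Δ x x = 0 := fun x => by simp only [Δ, gramDiff, ha, hb, sub_self]
  set G := fun t => ∫ g, Real.log (zp c p (Z a b t g)) ∂gauss ι with hG
  set G' := fun t => 1 / 2 * ∫ g, -qq c p Δ (Z a b t g) ∂gauss ι with hG'
  set G'' := fun t => 1 / 2 * (1 / 2 * ∑ x, ∑ y, Δ x y *
    ∫ g, k2 c p Δ x y (Z a b t g) ∂gauss ι) with hG''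
  have hconc : ConcaveOn ℝ (Set.Icc (0 : ℝ) 1) G := by
    refine concaveOn_of_hasDerivWithinAt2_nonpos (convex_Icc 0 1)
      (continuousOn_interp a b (tame_log hp)) (f' := G') (f'' := G'') (fun t ht => ?_)
      (fun t ht => ?_) fun t ht => ?_
    all_goals rw [interior_Icc] at ht
    · have hI : t ∈ Set.Icc (0 : ℝ) 1 := Set.Ioo_subset_Icc_self ht
      refine ((hasDerivAt_interp a b horth (tame_log hp) (chain_log hp) (tame_bb hp) (chain_bb hp)
        (tame_hess hp) ht).congr_deriv ?_).hasDerivWithinAt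
      simp only [hG', ← contract_hess hdiag]
      congr 1
      rw [integral_finsetSum _ fun x _ => integrable_finsetSum _ fun y _ =>
        (integrable_comp a b (tame_hess hp x y) hI).const_mul _]
      refine sum_congr rfl fun x _ => ?_
      rw [integral_finsetSum _ fun y _ =>
        (integrable_comp a b (tame_hess hp x y) hI).const_mul _]
      exact sum_congr rfl fun y _ => (integral_const_mul _ _).symm
    · exact (((hasDerivAt_interp a b horth (tame_qq hp).neg (chain_neg_qq hp hsym) (tame_k1 hp)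
        (chain_k1 hp hsym) (tame_k2 hp) ht).const_mul (1 / 2))).hasDerivWithinAt
    · obtain ⟨ht0, ht1⟩ := ht
      have hI : t ∈ Set.Icc (0 : ℝ) 1 := ⟨ht0.le, ht1.le⟩
      set v : X → ι → ℝ := fun x i => Real.sqrt (1 - t) * a x i + Real.sqrt t * b x i with hv
      have hZv : ∀ g x, Z a b t g x = ∑ i, v x i * g i := fun g x => by
        simp only [Z, hv, add_mul, sum_add_distrib, mul_sum, mul_assoc]
      have hv1 : ∀ x, ∑ i, v x i * v x i = 1 := fun x => by
        have e : ∀ i, v x i * v x i = Real.sqrt (1 - t) * Real.sqrt (1 - t) * (a x i * a x i) +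
            Real.sqrt t * Real.sqrt t * (b x i * b x i) +
            2 * (Real.sqrt (1 - t) * Real.sqrt t) * (a x i * b x i) := fun i => by
          simp only [hv]; ring
        simp only [e, sum_add_distrib, ← mul_sum, ha, hb, horth,
          Real.mul_self_sqrt (sub_nonneg.2 ht1.le), Real.mul_self_sqrt ht0.le]
        ring
      have hT : ∀ x y, Tame (pairT c p x y) := fun x y => by
        refine Tame.mul ((tame_wt hp x).mul (tame_wt hp y)) (((Tame.const 1).sub ?_).sub ?_)
        · simp only [pow_two]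
          exact (((Tame.coord x).mul (Tame.coord x)).add
            ((Tame.coord y).mul (Tame.coord y))).const_mul _
        · simp only [pow_two]
          exact (((Tame.const 1).add (((Tame.coord x).mul (Tame.coord x)).const_mul _)).const_mul
            _).mul (Tame.sum univ fun m _ => (tame_wt hp m).mul ((Tame.coord m).mul (Tame.coord m)))
      have hnn : ∀ x y, 0 ≤ ∫ g, pairT c p x y (Z a b t g) ∂gauss ι := fun x y => by
        have hZ : ∀ g, Z a b t g = fun x => ∑ i, v x i * g i := fun g => funext (hZv g)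
        have hi := integrable_comp a b (hT x y) hI
        simp only [hZ] at hi ⊢
        exact integral_pairT_nonneg hp hp1 hc hv1 x y hi
      have hsum : ∑ x, ∑ y, Δ x y * ∫ g, k2 c p Δ x y (Z a b t g) ∂gauss ι =
          ∫ g, ∑ x, ∑ y, Δ x y * k2 c p Δ x y (Z a b t g) ∂gauss ι := by
        rw [integral_finsetSum _ fun x _ => integrable_finsetSum _ fun y _ =>
          (integrable_comp a b (tame_k2 hp x y) hI).const_mul _]
        refine sum_congr rfl fun x _ => ?_
        rw [integral_finsetSum _ fun y _ =>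
          (integrable_comp a b (tame_k2 hp x y) hI).const_mul _]
        exact sum_congr rfl fun y _ => (integral_const_mul _ _).symm
      have hle : ∫ g, ∑ x, ∑ y, Δ x y * k2 c p Δ x y (Z a b t g) ∂gauss ι ≤
          ∫ g, -(8 * c ^ 2) * ∑ x, ∑ y, Δ x y ^ 2 * pairT c p x y (Z a b t g) ∂gauss ι := by
        refine integral_mono ?_ ?_ fun g => ?_
        · exact integrable_finsetSum _ fun x _ => integrable_finsetSum _ fun y _ =>
            (integrable_comp a b (tame_k2 hp x y) hI).const_mul _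
        · exact (integrable_finsetSum _ fun x _ => integrable_finsetSum _ fun y _ =>
            (integrable_comp a b (hT x y) hI).const_mul _).const_mul _
        · simp only [contract_k2 hsym hdiag]
          exact quad_bound hp Δ _
      have hrhs : ∫ g, -(8 * c ^ 2) * ∑ x, ∑ y, Δ x y ^ 2 * pairT c p x y (Z a b t g) ∂gauss ι
          ≤ 0 := by
        rw [integral_const_mul, integral_finsetSum _ fun x _ => integrable_finsetSum _ fun y _ =>
          (integrable_comp a b (hT x y) hI).const_mul _]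
        refine mul_nonpos_of_nonpos_of_nonneg (by nlinarith [sq_nonneg c]) (sum_nonneg fun x _ => ?_)
        rw [integral_finsetSum _ fun y _ => (integrable_comp a b (hT x y) hI).const_mul _]
        refine sum_nonneg fun y _ => ?_
        rw [integral_const_mul]
        exact mul_nonneg (sq_nonneg _) (hnn x y)
      simp only [hG'', hsum]
      linarith
  have h := hconc.2 (Set.left_mem_Icc.2 zero_le_one) (Set.right_mem_Icc.2 zero_le_one)
    (show 0 ≤ 1 - s by linarith) hs0 (by ring)
  simp only [smul_eq_mul, mul_zero, mul_one, zero_add] at h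
  have e0 : ∀ g, Z a b 0 g = fun x => ∑ i, a x i * g i := fun g => funext fun x => by simp [Z]
  have e1 : ∀ g, Z a b 1 g = fun x => ∑ i, b x i * g i := fun g => funext fun x => by simp [Z]
  simp only [hG, e0, e1] at h
  exact h

end Vale.Agent.P166W
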