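import Vale.Agent.P166W.Interp

/-!
Derivatives of the log-partition function `log ∑ p exp (c z²)` of one quadratic pattern, and the
contraction of its fourth derivative with the square of a covariance increment.
-/

namespace Vale.Agent.P166W

open Finset

variable {X : Type*} [Fintype X] (c : ℝ) (p : X → ℝ)

/-- The partition function. -/
noncomputable def zp (z : X → ℝ) : ℝ := ∑ x, p x * Real.exp (c * z x ^ 2)

/-- The Gibbs weight. -/
noncomputable def wt (x : X) (z : X → ℝ) : ℝ := p x * Real.exp (c * z x ^ 2) / zp c p z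

/-- The gradient. -/
noncomputable def bb (x : X) (z : X → ℝ) : ℝ := 2 * c * (z x * wt c p x z)

/-- The diagonal part of the second derivative. -/
noncomputable def dd (x : X) (z : X → ℝ) : ℝ := wt c p x z * (2 * c + 4 * c ^ 2 * (z x * z x))

/-- The diagonal part of the third derivative. -/
noncomputable def th (x : X) (z : X → ℝ) : ℝ :=
  bb c p x z * (2 * c + 4 * c ^ 2 * (z x * z x)) + wt c p x z * (8 * c ^ 2 * z x)

variable (Δ : X → X → ℝ)

/-- The increment applied to the gradient. -/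
noncomputable def uu (x : X) (z : X → ℝ) : ℝ := ∑ y, Δ x y * bb c p y z

/-- The increment as a form on the gradient. -/
noncomputable def qq (z : X → ℝ) : ℝ := ∑ x, bb c p x z * uu c p Δ x z

open Classical in
/-- The second derivative. -/
noncomputable def hess (x y : X) (z : X → ℝ) : ℝ :=
  (if x = y then dd c p x z else 0) - bb c p x z * bb c p y z

/-- The gradient of `-qq`. -/
noncomputable def k1 (x : X) (z : X → ℝ) : ℝ :=
  -2 * (dd c p x z * uu c p Δ x z - qq c p Δ z * bb c p x z)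

open Classical in
/-- The second derivative of `-qq`. -/
noncomputable def k2 (x y : X) (z : X → ℝ) : ℝ :=
  -2 * (((if x = y then th c p x z else 0) - dd c p x z * bb c p y z) * uu c p Δ x z
    + dd c p x z * (Δ x y * dd c p y z - uu c p Δ x z * bb c p y z)
    - 2 * (dd c p y z * uu c p Δ y z - qq c p Δ z * bb c p y z) * bb c p x z
    - qq c p Δ z * hess c p x y z)

variable {c p Δ}

variable [Nonempty X]

lemma zp_pos (hp : ∀ x, 0 < p x) (z : X → ℝ) : 0 < zp c p z :=
  sum_pos (fun x _ => mul_pos (hp x) (Real.exp_pos _)) univ_nonempty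

lemma wt_mem (hp : ∀ x, 0 < p x) (x : X) (z : X → ℝ) : 0 ≤ wt c p x z ∧ wt c p x z ≤ 1 := by
  refine ⟨div_nonneg (mul_pos (hp x) (Real.exp_pos _)).le (zp_pos hp z).le, ?_⟩
  rw [wt, div_le_one (zp_pos hp z)]
  exact single_le_sum (f := fun x => p x * Real.exp (c * z x ^ 2))
    (fun y _ => (mul_pos (hp y) (Real.exp_pos _)).le) (mem_univ x)

lemma tame_wt (hp : ∀ x, 0 < p x) (x : X) : Tame (wt c p x) := by
  refine Tame.of_bounded ?_ (C := 1) fun z => ?_
  · exact Continuous.div₀ (by fun_prop) (by unfold zp; fun_prop) fun z => (zp_pos hp z).ne'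
  · exact abs_le.2 ⟨by linarith [(wt_mem (c := c) hp x z).1], (wt_mem hp x z).2⟩

lemma tame_bb (hp : ∀ x, 0 < p x) (x : X) : Tame (bb c p x) :=
  ((Tame.coord x).mul (tame_wt hp x)).const_mul _

lemma tame_dd (hp : ∀ x, 0 < p x) (x : X) : Tame (dd c p x) :=
  (tame_wt hp x).mul ((Tame.const _).add (((Tame.coord x).mul (Tame.coord x)).const_mul _))

lemma tame_th (hp : ∀ x, 0 < p x) (x : X) : Tame (th c p x) :=
  ((tame_bb hp x).mul ((Tame.const _).add (((Tame.coord x).mul (Tame.coord x)).const_mul _))).add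
    ((tame_wt hp x).mul ((Tame.coord x).const_mul _))

lemma tame_uu (hp : ∀ x, 0 < p x) (x : X) : Tame (uu c p Δ x) :=
  Tame.sum univ fun y _ => (tame_bb hp y).const_mul _

lemma tame_qq (hp : ∀ x, 0 < p x) : Tame (qq c p Δ) :=
  Tame.sum univ fun x _ => (tame_bb hp x).mul (tame_uu hp x)

lemma tame_hess (hp : ∀ x, 0 < p x) (x y : X) : Tame (hess c p x y) := by
  classical
  refine Tame.sub ?_ ((tame_bb hp x).mul (tame_bb hp y))
  by_cases h : x = y
  · simp only [h, if_true]; exact tame_dd hp y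
  · simp only [if_neg h]; exact Tame.const _

lemma tame_k1 (hp : ∀ x, 0 < p x) (x : X) : Tame (k1 c p Δ x) :=
  (((tame_dd hp x).mul (tame_uu hp x)).sub ((tame_qq hp).mul (tame_bb hp x))).const_mul _

lemma tame_k2 (hp : ∀ x, 0 < p x) (x y : X) : Tame (k2 c p Δ x y) := by
  classical
  refine Tame.const_mul _ (((Tame.add ?_ ?_).sub ?_).sub ((tame_qq hp).mul (tame_hess hp x y)))
  · refine Tame.mul (Tame.sub ?_ ((tame_dd hp x).mul (tame_bb hp y))) (tame_uu hp x)
    by_cases h : x = y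
    · simp only [h, if_true]; exact tame_th hp y
    · simp only [if_neg h]; exact Tame.const _
  · exact (tame_dd hp x).mul
      (((tame_dd hp y).const_mul _).sub ((tame_uu hp x).mul (tame_bb hp y)))
  · exact ((((tame_dd hp y).mul (tame_uu hp y)).sub
      ((tame_qq hp).mul (tame_bb hp y))).const_mul _).mul (tame_bb hp x)

lemma tame_log (hp : ∀ x, 0 < p x) : Tame fun z => Real.log (zp c p z) := by
  refine ⟨Continuous.log (by unfold zp; fun_prop) fun z => (zp_pos hp z).ne',
    (∑ x, |Real.log (p x)|) + |Real.log (∑ x, p x)| + |c|, 2, by positivity, fun z => ?_⟩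
  set S := ∑ x, |z x| with hS
  have hS0 : 0 ≤ S := sum_nonneg fun x _ => abs_nonneg _
  have hz : ∀ x, |c * z x ^ 2| ≤ |c| * (1 + S) ^ 2 := fun x => by
    rw [abs_mul, abs_pow]
    refine mul_le_mul_of_nonneg_left (pow_le_pow_left₀ (abs_nonneg _) ?_ 2) (abs_nonneg _)
    linarith [single_le_sum (f := fun y => |z y|) (fun y _ => abs_nonneg _) (mem_univ x)]
  have h1 : (1 : ℝ) ≤ (1 + S) ^ 2 := one_le_pow₀ (by linarith)
  obtain ⟨x0⟩ := ‹Nonempty X›
  have hlo : Real.log (p x0) + c * z x0 ^ 2 ≤ Real.log (zp c p z) := by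
    rw [← Real.log_exp (c * z x0 ^ 2), ← Real.log_mul (hp x0).ne' (Real.exp_ne_zero _)]
    exact Real.log_le_log (mul_pos (hp x0) (Real.exp_pos _)) (single_le_sum
      (f := fun x => p x * Real.exp (c * z x ^ 2))
      (fun y _ => (mul_pos (hp y) (Real.exp_pos _)).le) (mem_univ x0))
  have hpS : 0 < ∑ x, p x := sum_pos (fun x _ => hp x) univ_nonempty
  have hhi : Real.log (zp c p z) ≤ Real.log (∑ x, p x) + |c| * (1 + S) ^ 2 := by
    rw [← Real.log_exp (|c| * (1 + S) ^ 2), ← Real.log_mul hpS.ne' (Real.exp_ne_zero _)]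
    refine Real.log_le_log (zp_pos hp z) ?_
    rw [sum_mul]
    exact sum_le_sum fun x _ => mul_le_mul_of_nonneg_left
      (Real.exp_le_exp.2 ((le_abs_self _).trans (hz x))) (hp x).le
  have e1 := (abs_le.1 (hz x0)).1
  have e2 := single_le_sum (f := fun x => |Real.log (p x)|) (fun x _ => abs_nonneg _) (mem_univ x0)
  have e3 := neg_abs_le (Real.log (p x0))
  have e4 := le_abs_self (Real.log (∑ x, p x))
  have e5 : ∀ t : ℝ, 0 ≤ t → t ≤ t * (1 + S) ^ 2 := fun t ht => le_mul_of_one_le_right ht h1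
  have a1 := e5 _ (sum_nonneg fun x (_ : x ∈ univ) => abs_nonneg (Real.log (p x)))
  have a2 := e5 _ (abs_nonneg (Real.log (∑ x, p x)))
  rw [add_mul, add_mul, abs_le]
  have := abs_nonneg (Real.log (p x0))
  constructor <;> linarith [abs_nonneg (Real.log (∑ x, p x)), sum_nonneg fun x (_ : x ∈ univ) =>
    abs_nonneg (Real.log (p x))]

section chain

variable (hp : ∀ x, 0 < p x) {γ : ℝ → X → ℝ} {γ' : X → ℝ} {s : ℝ}
  (hγ : ∀ x, HasDerivAt (fun t => γ t x) (γ' x) s)
include hp hγ

lemma deriv_zp : HasDerivAt (fun t => zp c p (γ t))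
    (zp c p (γ s) * ∑ y, bb c p y (γ s) * γ' y) s := by
  refine (HasDerivAt.fun_sum fun x _ =>
    ((((hγ x).fun_pow 2).const_mul c).exp.const_mul (p x))).congr_deriv ?_
  rw [mul_sum]
  refine sum_congr rfl fun x _ => ?_
  have := (zp_pos (c := c) hp (γ s)).ne'
  simp only [bb, wt]
  field_simp
  push_cast
  ring

lemma deriv_wt (x : X) : HasDerivAt (fun t => wt c p x (γ t))
    (bb c p x (γ s) * γ' x - wt c p x (γ s) * ∑ y, bb c p y (γ s) * γ' y) s := by
  refine (((((hγ x).fun_pow 2).const_mul c).exp.const_mul (p x)).div (deriv_zp hp hγ)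
    (zp_pos hp _).ne').congr_deriv ?_
  have := (zp_pos (c := c) hp (γ s)).ne'
  generalize ∑ y, bb c p y (γ s) * γ' y = S
  simp only [bb, wt]
  field_simp
  push_cast
  ring

lemma deriv_bb (x : X) : HasDerivAt (fun t => bb c p x (γ t))
    (dd c p x (γ s) * γ' x - bb c p x (γ s) * ∑ y, bb c p y (γ s) * γ' y) s := by
  refine (((hγ x).mul (deriv_wt hp hγ x)).const_mul (2 * c)).congr_deriv ?_
  generalize ∑ y, bb c p y (γ s) * γ' y = S
  simp only [bb, dd]
  ring

lemma deriv_dd (x : X) : HasDerivAt (fun t => dd c p x (γ t))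
    (th c p x (γ s) * γ' x - dd c p x (γ s) * ∑ y, bb c p y (γ s) * γ' y) s := by
  refine ((deriv_wt hp hγ x).mul
    ((((hγ x).mul (hγ x)).const_mul (4 * c ^ 2)).const_add (2 * c))).congr_deriv ?_
  generalize ∑ y, bb c p y (γ s) * γ' y = S
  simp only [bb, dd, th, Pi.mul_apply]
  ring

lemma deriv_uu (x : X) : HasDerivAt (fun t => uu c p Δ x (γ t))
    (∑ y, (Δ x y * dd c p y (γ s) - uu c p Δ x (γ s) * bb c p y (γ s)) * γ' y) s := by
  refine (HasDerivAt.fun_sum fun y _ => (deriv_bb hp hγ y).const_mul (Δ x y)).congr_deriv ?_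
  simp only [sub_mul, sum_sub_distrib, mul_sub, mul_assoc, ← mul_sum]
  congr 1
  rw [uu, sum_mul]
  exact sum_congr rfl fun y _ => by ring

lemma deriv_qq (hsym : ∀ x y, Δ x y = Δ y x) : HasDerivAt (fun t => qq c p Δ (γ t))
    (∑ y, 2 * (dd c p y (γ s) * uu c p Δ y (γ s) - qq c p Δ (γ s) * bb c p y (γ s)) * γ' y) s := by
  refine (HasDerivAt.fun_sum fun x _ => (deriv_bb hp hγ x).mul (deriv_uu hp hγ x)).congr_deriv ?_
  set z := γ s
  have hswap : ∑ x, bb c p x z * ∑ y, Δ x y * dd c p y z * γ' y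
      = ∑ y, dd c p y z * uu c p Δ y z * γ' y := by
    simp only [uu, mul_sum, sum_mul]
    rw [sum_comm]
    exact sum_congr rfl fun y _ => sum_congr rfl fun x _ => by rw [hsym x y]; ring
  set S := ∑ y, bb c p y z * γ' y with hS
  have e1 : ∀ x, bb c p x z * ∑ y, (Δ x y * dd c p y z - uu c p Δ x z * bb c p y z) * γ' y =
      bb c p x z * (∑ y, Δ x y * dd c p y z * γ' y) - bb c p x z * uu c p Δ x z * S := fun x => by
    simp only [sub_mul, sum_sub_distrib, mul_assoc (uu c p Δ x z), ← mul_sum, ← hS, mul_sub]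
    ring
  have e2 : ∀ x, (dd c p x z * γ' x - bb c p x z * S) * uu c p Δ x z =
      dd c p x z * uu c p Δ x z * γ' x - bb c p x z * uu c p Δ x z * S := fun x => by ring
  have e3 : ∀ x, 2 * (dd c p x z * uu c p Δ x z - qq c p Δ z * bb c p x z) * γ' x =
      2 * (dd c p x z * uu c p Δ x z * γ' x) - 2 * qq c p Δ z * (bb c p x z * γ' x) := fun x => by
    ring
  rw [sum_add_distrib]
  simp only [e1, e2, e3, sum_sub_distrib, ← sum_mul, ← mul_sum, hswap, ← hS]
  rw [← qq]
  ring

end chain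

variable (hp : ∀ x, 0 < p x)
include hp

lemma chain_log : Chain (fun z => Real.log (zp c p z)) (bb c p) := fun γ γ' s h => by
  refine ((deriv_zp hp h).log (zp_pos hp _).ne').congr_deriv ?_
  exact mul_div_cancel_left₀ _ (zp_pos hp _).ne'

lemma chain_bb (x : X) : Chain (bb c p x) (hess c p x) := fun γ γ' s h => by
  classical
  refine (deriv_bb hp h x).congr_deriv ?_
  simp only [hess, sub_mul, ite_mul, zero_mul, sum_sub_distrib, sum_ite_eq, mem_univ, if_true,
    mul_assoc, ← mul_sum]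

lemma chain_neg_qq (hsym : ∀ x y, Δ x y = Δ y x) :
    Chain (fun z => -qq c p Δ z) (k1 c p Δ) := fun γ γ' s h => by
  refine (deriv_qq hp h hsym).neg.congr_deriv ?_
  rw [← sum_neg_distrib]
  exact sum_congr rfl fun y _ => by simp only [k1]; ring

lemma chain_k1 (hsym : ∀ x y, Δ x y = Δ y x) (x : X) :
    Chain (k1 c p Δ x) (k2 c p Δ x) := fun γ γ' s h => by
  classical
  refine ((((deriv_dd hp h x).mul (deriv_uu (Δ := Δ) hp h x)).sub
    ((deriv_qq hp h hsym).mul (deriv_bb hp h x))).const_mul (-2)).congr_deriv ?_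
  set z := γ s
  simp only [k2, hess]
  simp only [mul_sub, mul_add, sub_mul, add_mul, sum_sub_distrib, sum_add_distrib, mul_sum,
    sum_mul, ite_mul, mul_ite, zero_mul, mul_zero, sum_ite_eq, mem_univ, if_true, mul_assoc]
  simp only [mul_comm, mul_left_comm]
  ring

omit [Nonempty X] hp in
/-- The contraction of the fourth derivative. -/
lemma contract_k2 (hsym : ∀ x y, Δ x y = Δ y x) (hdiag : ∀ x, Δ x x = 0) (z : X → ℝ) :
    ∑ x, ∑ y, Δ x y * k2 c p Δ x y z =
      -2 * (∑ x, ∑ y, Δ x y ^ 2 * (dd c p x z * dd c p y z))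
        + 8 * (∑ x, dd c p x z * uu c p Δ x z ^ 2) - 6 * qq c p Δ z ^ 2 := by
  classical
  have e : ∀ x y, Δ x y * k2 c p Δ x y z =
      -2 * (Δ x y ^ 2 * (dd c p x z * dd c p y z))
      + 4 * (dd c p x z * uu c p Δ x z * (Δ x y * bb c p y z))
      + 4 * (dd c p y z * uu c p Δ y z * (Δ y x * bb c p x z))
      - 6 * qq c p Δ z * (bb c p x z * (Δ x y * bb c p y z)) := by
    intro x y
    by_cases h : x = y
    · subst h; simp [hdiag]
    · simp only [k2, hess, if_neg h, hsym y x]; ring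
  simp only [e, sum_add_distrib, sum_sub_distrib, ← mul_sum]
  rw [sum_comm (f := fun x y => dd c p y z * uu c p Δ y z * (Δ y x * bb c p x z))]
  simp only [← mul_sum, uu, qq]
  have : ∀ x, dd c p x z * (∑ y, Δ x y * bb c p y z) * (∑ y, Δ x y * bb c p y z) =
      dd c p x z * (∑ y, Δ x y * bb c p y z) ^ 2 := fun x => by ring
  simp only [this]
  ring

omit [Nonempty X] hp in
lemma contract_hess (hdiag : ∀ x, Δ x x = 0) (z : X → ℝ) :
    ∑ x, ∑ y, Δ x y * hess c p x y z = -qq c p Δ z := by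
  classical
  simp only [qq, uu, mul_sum, ← sum_neg_distrib]
  refine sum_congr rfl fun x _ => sum_congr rfl fun y _ => ?_
  by_cases h : x = y
  · subst h; simp [hdiag]
  · simp only [hess, if_neg h]; ring

end Vale.Agent.P166W
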