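import Vale.Agent.P166W.Ibp

/-!
Gaussian interpolation between two jointly Gaussian fields on a finite set.
-/

namespace Vale.Agent.P166W

open MeasureTheory ProbabilityTheory Finset Function
open scoped Topology

variable {X : Type*} [Fintype X]

/-- `F1` is the gradient of `F`, stated along paths. -/
def Chain (F : (X → ℝ) → ℝ) (F1 : X → (X → ℝ) → ℝ) : Prop :=
  ∀ (γ : ℝ → X → ℝ) (γ' : X → ℝ) (s : ℝ), (∀ x, HasDerivAt (fun t => γ t x) (γ' x) s) →
    HasDerivAt (fun t => F (γ t)) (∑ x, F1 x (γ s) * γ' x) s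

/-- Continuous of polynomial growth. -/
def Tame (F : (X → ℝ) → ℝ) : Prop :=
  Continuous F ∧ ∃ (A : ℝ) (m : ℕ), 0 ≤ A ∧ ∀ z, |F z| ≤ A * (1 + ∑ x, |z x|) ^ m

namespace Tame

variable {F G : (X → ℝ) → ℝ}

lemma one_le (z : X → ℝ) : (1 : ℝ) ≤ 1 + ∑ x, |z x| :=
  le_add_of_nonneg_right (sum_nonneg fun _ _ => abs_nonneg _)

lemma of_bounded (hc : Continuous F) {C : ℝ} (h : ∀ z, |F z| ≤ C) : Tame F :=
  ⟨hc, max C 0, 0, le_max_right _ _, fun z => by simpa using Or.inl (h z)⟩

lemma const (c : ℝ) : Tame fun _ : X → ℝ => c :=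
  of_bounded continuous_const fun _ => le_refl |c|

lemma coord (x : X) : Tame fun z : X → ℝ => z x := by
  refine ⟨continuous_apply x, 1, 1, zero_le_one, fun z => ?_⟩
  have := single_le_sum (f := fun y => |z y|) (fun y _ => abs_nonneg _) (mem_univ x)
  rw [one_mul, pow_one]
  linarith

lemma neg (hF : Tame F) : Tame fun z => -F z := by
  obtain ⟨hc, A, m, hA0, hA⟩ := hF
  exact ⟨hc.neg, A, m, hA0, fun z => by rw [abs_neg]; exact hA z⟩

lemma add (hF : Tame F) (hG : Tame G) : Tame fun z => F z + G z := by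
  obtain ⟨hc, A, m, hA0, hA⟩ := hF
  obtain ⟨hc', B, n, hB0, hB⟩ := hG
  refine ⟨hc.add hc', A + B, m + n, add_nonneg hA0 hB0, fun z => ?_⟩
  refine (abs_add_le _ _).trans ?_
  have h1 := (hA z).trans (mul_le_mul_of_nonneg_left
    (pow_le_pow_right₀ (one_le z) (Nat.le_add_right m n)) hA0)
  have h2 := (hB z).trans (mul_le_mul_of_nonneg_left
    (pow_le_pow_right₀ (one_le z) (Nat.le_add_left n m)) hB0)
  rw [add_mul]
  exact add_le_add h1 h2

lemma sub (hF : Tame F) (hG : Tame G) : Tame fun z => F z - G z := by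
  simpa [sub_eq_add_neg] using hF.add hG.neg

lemma mul (hF : Tame F) (hG : Tame G) : Tame fun z => F z * G z := by
  obtain ⟨hc, A, m, hA0, hA⟩ := hF
  obtain ⟨hc', B, n, hB0, hB⟩ := hG
  refine ⟨hc.mul hc', A * B, m + n, mul_nonneg hA0 hB0, fun z => ?_⟩
  rw [abs_mul, pow_add]
  refine (mul_le_mul (hA z) (hB z) (abs_nonneg _) ((abs_nonneg _).trans (hA z))).trans (le_of_eq ?_)
  ring

lemma const_mul (c : ℝ) (hF : Tame F) : Tame fun z => c * F z := (const c).mul hF

lemma sum {α : Type*} (s : Finset α) {F : α → (X → ℝ) → ℝ} (h : ∀ a ∈ s, Tame (F a)) :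
    Tame fun z => ∑ a ∈ s, F a z := by
  classical
  induction s using Finset.induction_on with
  | empty => simpa using const (X := X) 0
  | @insert a s ha ih =>
    simp only [sum_insert ha]
    exact (h a (mem_insert_self a s)).add (ih fun b hb => h b (mem_insert_of_mem hb))

end Tame

variable {ι : Type*} [Fintype ι]

/-- The interpolated field. -/
noncomputable def Z (a b : X → ι → ℝ) (s : ℝ) (g : ι → ℝ) (x : X) : ℝ :=
  Real.sqrt (1 - s) * ∑ i, a x i * g i + Real.sqrt s * ∑ i, b x i * g i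

/-- The difference of the covariances. -/
def gramDiff (a b : X → ι → ℝ) (x y : X) : ℝ := ∑ i, b x i * b y i - ∑ i, a x i * a y i

variable (a b : X → ι → ℝ)

omit [Fintype X] in
lemma continuous_Z_g (s : ℝ) : Continuous fun g => Z a b s g :=
  continuous_pi fun x => by unfold Z; fun_prop

omit [Fintype X] in
lemma continuous_Z_s (g : ι → ℝ) : Continuous fun s => Z a b s g :=
  continuous_pi fun x => by unfold Z; fun_prop

lemma exists_growth {F : (X → ℝ) → ℝ} (hF : Tame F) :
    ∃ (A : ℝ) (m : ℕ), 0 ≤ A ∧ ∀ s ∈ Set.Icc (0 : ℝ) 1, ∀ g,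
      |F (Z a b s g)| ≤ A * (1 + ∑ i, |g i|) ^ m := by
  obtain ⟨-, A, m, hA0, hA⟩ := hF
  set K := 1 + ∑ x, ∑ i, (|a x i| + |b x i|) with hK
  have hK1 : 1 ≤ K :=
    le_add_of_nonneg_right (sum_nonneg fun _ _ => sum_nonneg fun _ _ => by positivity)
  refine ⟨A * K ^ m, m, by positivity, fun s hs g => (hA _).trans ?_⟩
  rw [mul_assoc, ← mul_pow]
  refine mul_le_mul_of_nonneg_left (pow_le_pow_left₀ (by positivity) ?_ m) hA0
  set G := 1 + ∑ i, |g i| with hG
  have hG1 : 1 ≤ G := le_add_of_nonneg_right (sum_nonneg fun _ _ => abs_nonneg _)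
  have hgi : ∀ i, |g i| ≤ G := fun i => by
    have := single_le_sum (f := fun i => |g i|) (fun i _ => abs_nonneg _) (mem_univ i)
    linarith
  have hlin : ∀ c : ι → ℝ, |∑ i, c i * g i| ≤ (∑ i, |c i|) * G := fun c => by
    rw [sum_mul]
    refine (abs_sum_le_sum_abs _ _).trans (sum_le_sum fun i _ => ?_)
    rw [abs_mul]
    exact mul_le_mul_of_nonneg_left (hgi i) (abs_nonneg _)
  have h1 : Real.sqrt (1 - s) ≤ 1 := Real.sqrt_le_one.2 (by linarith [hs.1])
  have h2 : Real.sqrt s ≤ 1 := Real.sqrt_le_one.2 hs.2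
  have hx : ∀ x, |Z a b s g x| ≤ (∑ i, (|a x i| + |b x i|)) * G := fun x => by
    rw [sum_add_distrib, add_mul]
    refine (abs_add_le _ _).trans (add_le_add ?_ ?_) <;> rw [abs_mul, abs_of_nonneg (Real.sqrt_nonneg _)]
    · exact (mul_le_of_le_one_left (abs_nonneg _) h1).trans (hlin _)
    · exact (mul_le_of_le_one_left (abs_nonneg _) h2).trans (hlin _)
  calc 1 + ∑ x, |Z a b s g x| ≤ 1 + (∑ x, ∑ i, (|a x i| + |b x i|)) * G := by
        rw [sum_mul]; exact add_le_add le_rfl (sum_le_sum fun x _ => hx x)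
    _ ≤ K * G := by rw [hK, add_mul, one_mul]; exact add_le_add hG1 le_rfl

lemma polyGrowth_comp {F : (X → ℝ) → ℝ} (hF : Tame F) {s : ℝ} (hs : s ∈ Set.Icc (0 : ℝ) 1) :
    PolyGrowth fun g => F (Z a b s g) := by
  obtain ⟨A, m, -, h⟩ := exists_growth a b hF
  exact ⟨A, m, h s hs⟩

lemma integrable_comp {F : (X → ℝ) → ℝ} (hF : Tame F) {s : ℝ} (hs : s ∈ Set.Icc (0 : ℝ) 1) :
    Integrable (fun g => F (Z a b s g)) (gauss ι) :=
  (polyGrowth_comp a b hF hs).integrable (hF.1.comp (continuous_Z_g a b s))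

lemma continuousOn_interp {F : (X → ℝ) → ℝ} (hF : Tame F) :
    ContinuousOn (fun s => ∫ g, F (Z a b s g) ∂gauss ι) (Set.Icc (0 : ℝ) 1) := by
  obtain ⟨A, m, -, h⟩ := exists_growth a b hF
  have hb : PolyGrowth fun g : ι → ℝ => A * (1 + ∑ i, |g i|) ^ m := by
    refine ⟨|A|, m, fun g => ?_⟩
    rw [abs_mul, abs_of_nonneg (show (0 : ℝ) ≤ (1 + ∑ i, |g i|) ^ m by positivity)]
  refine continuousOn_of_dominated (bound := fun g : ι → ℝ => A * (1 + ∑ i, |g i|) ^ m)
    (fun s _ => (hF.1.comp (continuous_Z_g a b s)).aestronglyMeasurable)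
    (fun s hs => ae_of_all _ fun g => h s hs g) (hb.integrable (by fun_prop))
    (ae_of_all _ fun g => (hF.1.comp (continuous_Z_s a b g)).continuousOn)

/-- Gaussian interpolation. -/
theorem hasDerivAt_interp (horth : ∀ x y, ∑ i, a x i * b y i = 0) {F : (X → ℝ) → ℝ}
    {F1 : X → (X → ℝ) → ℝ} {F2 : X → X → (X → ℝ) → ℝ} (hF : Tame F) (hc : Chain F F1)
    (h1 : ∀ x, Tame (F1 x)) (hc1 : ∀ x, Chain (F1 x) (F2 x)) (h2 : ∀ x y, Tame (F2 x y))
    {s : ℝ} (hs : s ∈ Set.Ioo (0 : ℝ) 1) :
    HasDerivAt (fun t => ∫ g, F (Z a b t g) ∂gauss ι)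
      (1 / 2 * ∑ x, ∑ y, gramDiff a b x y * ∫ g, F2 x y (Z a b s g) ∂gauss ι) s := by
  classical
  obtain ⟨hs0, hs1⟩ := hs
  have hsI : s ∈ Set.Icc (0 : ℝ) 1 := ⟨hs0.le, hs1.le⟩
  set e : ℝ → X → ι → ℝ := fun t x i =>
    -(a x i) / (2 * Real.sqrt (1 - t)) + b x i / (2 * Real.sqrt t) with he
  set F' : ℝ → (ι → ℝ) → ℝ := fun t g => ∑ x, F1 x (Z a b t g) * ∑ i, e t x i * g i with hF'
  set U := Set.Ioo (s / 2) ((1 + s) / 2) with hU
  have hUn : U ∈ 𝓝 s := Ioo_mem_nhds (by linarith) (by linarith)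
  have hUI : U ⊆ Set.Icc (0 : ℝ) 1 := fun t ht => ⟨by linarith [ht.1], by linarith [ht.2]⟩
  have hdZ : ∀ t ∈ U, ∀ g x,
      HasDerivAt (fun u => Z a b u g x) (∑ i, e t x i * g i) t := fun t ht g x => by
    have ht0 : 0 < t := by linarith [ht.1]
    have ht1 : 0 < 1 - t := by linarith [ht.2]
    have d1 := ((hasDerivAt_id t).const_sub 1).sqrt ht1.ne'
    have d2 := (hasDerivAt_id t).sqrt ht0.ne'
    refine ((d1.mul_const (∑ i, a x i * g i)).add (d2.mul_const (∑ i, b x i * g i))).congr_deriv ?_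
    simp only [he, id_eq, add_mul, sum_add_distrib, mul_sum]
    congr 1 <;> exact sum_congr rfl fun i _ => by ring
  obtain ⟨A, m, hA0, hA⟩ := exists_growth a b (Tame.sum univ fun x _ => (h1 x).mul (h1 x))
  set E : ℝ := (Fintype.card X : ℝ) * ∑ x, ∑ i, (|a x i| / (2 * Real.sqrt ((1 - s) / 2)) +
    |b x i| / (2 * Real.sqrt (s / 2))) with hE
  have hbound : ∀ t ∈ U, ∀ g : ι → ℝ,
      |F' t g| ≤ E * (1 + A) * (1 + ∑ i, |g i|) ^ (m + 1) := by
    intro t ht g
    have hG : (1 : ℝ) ≤ 1 + ∑ i, |g i| := le_add_of_nonneg_right (sum_nonneg fun _ _ => abs_nonneg _)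
    have hF1 : ∀ x, |F1 x (Z a b t g)| ≤ (1 + A) * (1 + ∑ i, |g i|) ^ m := fun x => by
      have hh := (le_abs_self _).trans (hA t (hUI ht) g)
      have hx := single_le_sum (f := fun x => F1 x (Z a b t g) * F1 x (Z a b t g))
        (fun y _ => mul_self_nonneg _) (mem_univ x)
      have := one_le_pow₀ hG (n := m)
      nlinarith [mul_self_nonneg (|F1 x (Z a b t g)| - 1), abs_nonneg (F1 x (Z a b t g)),
        abs_mul_abs_self (F1 x (Z a b t g))]
    have he' : ∀ x i, |e t x i| ≤ |a x i| / (2 * Real.sqrt ((1 - s) / 2)) +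
        |b x i| / (2 * Real.sqrt (s / 2)) := fun x i => by
      refine (abs_add_le _ _).trans (add_le_add ?_ ?_) <;>
        rw [abs_div, abs_of_nonneg (show (0 : ℝ) ≤ 2 * _ by positivity)]
      · rw [abs_neg]
        exact div_le_div_of_nonneg_left (abs_nonneg _)
          (by have : 0 < Real.sqrt ((1 - s) / 2) := Real.sqrt_pos.2 (by linarith); linarith)
          (by gcongr; linarith [ht.2])
      · exact div_le_div_of_nonneg_left (abs_nonneg _)
          (by have : 0 < Real.sqrt (s / 2) := Real.sqrt_pos.2 (by linarith); linarith)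
          (by gcongr; linarith [ht.1])
    have hlin : ∀ x, |∑ i, e t x i * g i| ≤ (∑ y, ∑ i, (|a y i| / (2 * Real.sqrt ((1 - s) / 2)) +
        |b y i| / (2 * Real.sqrt (s / 2)))) * (1 + ∑ i, |g i|) := fun x => by
      refine le_trans ?_ (mul_le_mul_of_nonneg_right (single_le_sum
        (f := fun y => ∑ i, (|a y i| / (2 * Real.sqrt ((1 - s) / 2)) +
          |b y i| / (2 * Real.sqrt (s / 2)))) (fun y _ => sum_nonneg fun i _ => by positivity)
        (mem_univ x)) (zero_le_one.trans hG))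
      rw [sum_mul]
      refine (abs_sum_le_sum_abs _ _).trans (sum_le_sum fun i _ => ?_)
      rw [abs_mul]
      refine mul_le_mul (he' x i) ?_ (abs_nonneg _) (by positivity)
      linarith [single_le_sum (f := fun i => |g i|) (fun i _ => abs_nonneg _) (mem_univ i)]
    calc |F' t g| ≤ ∑ _x : X, ((1 + A) * (1 + ∑ i, |g i|) ^ m) *
          ((∑ y, ∑ i, (|a y i| / (2 * Real.sqrt ((1 - s) / 2)) +
            |b y i| / (2 * Real.sqrt (s / 2)))) * (1 + ∑ i, |g i|)) :=
          (abs_sum_le_sum_abs _ _).trans (sum_le_sum fun x _ => by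
            rw [abs_mul]; exact mul_le_mul (hF1 x) (hlin x) (abs_nonneg _) (by positivity))
      _ = _ := by rw [sum_const, card_univ, nsmul_eq_mul, hE, pow_succ]; ring
  have hbi : Integrable (fun g : ι → ℝ => E * (1 + A) * (1 + ∑ i, |g i|) ^ (m + 1)) (gauss ι) := by
    refine PolyGrowth.integrable ⟨|E * (1 + A)|, m + 1, fun g => ?_⟩ (by fun_prop)
    rw [abs_mul, abs_of_nonneg (show (0 : ℝ) ≤ (1 + ∑ i, |g i|) ^ (m + 1) by positivity)]
  have hF'c : ∀ t, Continuous (F' t) := fun t => continuous_finsetSum _ fun x _ =>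
    ((h1 x).1.comp (continuous_Z_g a b t)).mul (by fun_prop)
  have main := (hasDerivAt_integral_of_dominated_loc_of_deriv_le (μ := gauss ι)
    (F := fun t g => F (Z a b t g)) (F' := F') (x₀ := s) hUn
    (Filter.Eventually.of_forall fun t => (hF.1.comp (continuous_Z_g a b t)).aestronglyMeasurable)
    (integrable_comp a b hF hsI) (hF'c s).aestronglyMeasurable
    (ae_of_all _ fun g t ht => (Real.norm_eq_abs _).trans_le (hbound t ht g)) hbi
    (ae_of_all _ fun g t ht =>
      hc (fun u => Z a b u g) (fun x => ∑ i, e t x i * g i) t (hdZ t ht g))).2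
  refine main.congr_deriv ?_
  -- integration by parts
  set C : X → ι → ℝ := fun y i => Real.sqrt (1 - s) * a y i + Real.sqrt s * b y i with hC
  have hibp : ∀ x i, ∫ g, g i * F1 x (Z a b s g) ∂gauss ι =
      ∫ g, ∑ y, F2 x y (Z a b s g) * C y i ∂gauss ι := fun x i => by
    have ht : Tame fun z : X → ℝ => ∑ y, F2 x y z * C y i :=
      Tame.sum univ fun y _ => (h2 x y).mul (Tame.const _)
    refine gauss_ibp i ((h1 x).1.comp (continuous_Z_g a b s)) (ht.1.comp (continuous_Z_g a b s))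
      (fun g => ?_) (polyGrowth_comp a b (h1 x) hsI) (polyGrowth_comp a b ht hsI)
    have hd := hc1 x (fun u => Z a b s (update g i u)) (fun y => C y i) (g i) fun y => ?_
    · simpa [update_eq_self] using hd
    · have hu : ∀ c : ι → ℝ, HasDerivAt (fun u => ∑ j, c j * update g i u j) (c i) (g i) := by
        intro c
        have e1 : (fun u => ∑ j, c j * update g i u j) =
            fun u => c i * u + ∑ j ∈ univ.erase i, c j * g j := by
          funext u
          rw [← add_sum_erase _ _ (mem_univ i), update_self]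
          congr 1
          exact sum_congr rfl fun j hj => by rw [update_of_ne (ne_of_mem_erase hj)]
        rw [e1]
        simpa using ((hasDerivAt_id (g i)).const_mul (c i)).add_const (∑ j ∈ univ.erase i, c j * g j)
      exact ((hu (a y)).const_mul _).add ((hu (b y)).const_mul _)
  have hint : ∀ x i, Integrable (fun g => g i * F1 x (Z a b s g)) (gauss ι) := fun x i => by
    refine PolyGrowth.integrable ?_ ((continuous_apply i).mul ((h1 x).1.comp (continuous_Z_g a b s)))
    obtain ⟨B, n, hB⟩ := polyGrowth_comp a b (h1 x) hsI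
    refine ⟨B, n + 1, fun g => ?_⟩
    have h0 : |g i| ≤ 1 + ∑ j, |g j| := by
      linarith [single_le_sum (f := fun j => |g j|) (fun j _ => abs_nonneg _) (mem_univ i)]
    rw [abs_mul, pow_succ]
    have := mul_le_mul h0 (hB g) (abs_nonneg _) (le_trans (abs_nonneg _) h0)
    linarith
  have key : ∀ x y, ∑ i, e s x i * C y i = 1 / 2 * gramDiff a b x y := by
    intro x y
    have r0 : Real.sqrt s ≠ 0 := (Real.sqrt_pos.2 hs0).ne'
    have r1 : Real.sqrt (1 - s) ≠ 0 := (Real.sqrt_pos.2 (by linarith)).ne'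
    have e1 : ∀ i, e s x i * C y i = 1 / 2 * (b x i * b y i) - 1 / 2 * (a x i * a y i) +
        Real.sqrt (1 - s) / (2 * Real.sqrt s) * (a y i * b x i) -
        Real.sqrt s / (2 * Real.sqrt (1 - s)) * (a x i * b y i) := fun i => by
      simp only [he, hC]
      field_simp
      ring
    simp only [e1, sum_add_distrib, sum_sub_distrib, ← mul_sum, horth, gramDiff]
    ring
  calc ∫ g, F' s g ∂gauss ι = ∫ g, ∑ x, ∑ i, e s x i * (g i * F1 x (Z a b s g)) ∂gauss ι := by
        refine integral_congr_ae (ae_of_all _ fun g => ?_)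
        simp only [hF', mul_sum]
        exact sum_congr rfl fun x _ => sum_congr rfl fun i _ => by ring
    _ = ∑ x, ∑ i, e s x i * ∑ y, C y i * ∫ g, F2 x y (Z a b s g) ∂gauss ι := by
        rw [integral_finsetSum _ fun x _ => integrable_finsetSum _ fun i _ => (hint x i).const_mul _]
        refine sum_congr rfl fun x _ => ?_
        rw [integral_finsetSum _ fun i _ => (hint x i).const_mul _]
        refine sum_congr rfl fun i _ => ?_
        rw [integral_const_mul, hibp x i,
          integral_finsetSum _ fun y _ => (integrable_comp a b (h2 x y) hsI).mul_const _]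
        exact congrArg _ (sum_congr rfl fun y _ => by rw [integral_mul_const]; ring)
    _ = _ := by
        rw [mul_sum]
        refine sum_congr rfl fun x _ => ?_
        rw [mul_sum]
        simp only [mul_sum]
        rw [sum_comm]
        refine sum_congr rfl fun y _ => ?_
        rw [← mul_assoc, ← key x y, sum_mul]
        exact sum_congr rfl fun i _ => by ring

end Vale.Agent.P166W
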